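import Mathlib

/-! Product operators, diagonal projections and the circuit classes used for S0539. -/

set_option autoImplicit false

open scoped Matrix.Norms.L2Operator
open Matrix

namespace Crest.Agent.R344

abbrev Cfg (N : ℕ) : Type := Fin N → Bool
abbrev Mat (N : ℕ) : Type := Matrix (Cfg N) (Cfg N) ℂ
abbrev M2 : Type := Matrix Bool Bool ℂ

variable {N : ℕ}

/-- Tensor product of one-qubit matrices. -/
def prodOp (M : Fin N → M2) : Mat N := Matrix.of fun σ τ => ∏ i, M i (σ i) (τ i)

lemma prodOp_apply (M : Fin N → M2) (σ τ : Cfg N) :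
    prodOp M σ τ = ∏ i, M i (σ i) (τ i) := rfl

lemma prodOp_mul (M M' : Fin N → M2) :
    prodOp M * prodOp M' = prodOp (fun i => M i * M' i) := by
  ext σ τ
  simp only [Matrix.mul_apply, prodOp_apply]
  rw [Finset.prod_univ_sum]
  simp only [Fintype.piFinset_univ, Finset.prod_mul_distrib]

lemma prodOp_diagonal (d : Fin N → Bool → ℂ) :
    prodOp (fun i => diagonal (d i)) = diagonal (fun σ : Cfg N => ∏ i, d i (σ i)) := by
  ext σ τ
  rw [prodOp_apply]
  by_cases h : σ = τ
  · subst h; simp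
  · rw [diagonal_apply_ne _ h]
    obtain ⟨i, hi⟩ := Function.ne_iff.mp h
    exact Finset.prod_eq_zero (Finset.mem_univ i) (diagonal_apply_ne _ hi)

lemma prodOp_one : prodOp (fun _ : Fin N => (1 : M2)) = 1 := by
  have := prodOp_diagonal (N := N) (fun _ _ => 1)
  simpa using this

lemma prodOp_star (M : Fin N → M2) : star (prodOp M) = prodOp (fun i => star (M i)) := by
  ext σ τ
  simp only [star_eq_conjTranspose, conjTranspose_apply, prodOp_apply, star_prod]

lemma diagonal_comm_prodOp (A : Finset (Fin N)) (M : Fin N → M2) (hM : ∀ i ∉ A, M i = 1)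
    (f : Cfg N → ℂ) (hf : ∀ σ τ : Cfg N, (∀ i ∉ A, σ i = τ i) → f σ = f τ) :
    diagonal f * prodOp M = prodOp M * diagonal f := by
  ext σ τ
  rw [diagonal_mul, mul_diagonal]
  by_cases h : ∀ i ∉ A, σ i = τ i
  · rw [hf σ τ h, mul_comm]
  · push Not at h
    obtain ⟨i, hi, hne⟩ := h
    have : prodOp M σ τ = 0 := by
      rw [prodOp_apply]
      refine Finset.prod_eq_zero (Finset.mem_univ i) ?_
      rw [hM i hi]; exact one_apply_ne hne
    simp [this]

lemma prodOp_mem_unitary (u : Fin N → M2) (hu : ∀ i, u i ∈ unitary M2) :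
    prodOp u ∈ unitary (Mat N) := by
  constructor
  · rw [prodOp_star, prodOp_mul, ← prodOp_one]
    congr 1; funext i; exact (hu i).1
  · rw [prodOp_star, prodOp_mul, ← prodOp_one]
    congr 1; funext i; exact (hu i).2

lemma norm_diagonal_le (f : Cfg N → ℂ) (c : ℝ) (hc : 0 ≤ c) (h : ∀ σ, ‖f σ‖ ≤ c) :
    ‖(diagonal f : Mat N)‖ ≤ c := by
  rw [l2_opNorm_diagonal]
  exact (pi_norm_le_iff_of_nonneg hc).2 h

/-- Number of excited (`false`) wires in `S`. -/
def wt (S : Finset (Fin N)) (σ : Cfg N) : ℕ := (S.filter fun i => σ i = false).card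

lemma wt_le (S : Finset (Fin N)) (σ : Cfg N) : wt S σ ≤ N := by
  unfold wt
  simpa using Finset.card_le_univ (S.filter fun i => σ i = false)

lemma wt_eq_zero_iff (S : Finset (Fin N)) (σ : Cfg N) : wt S σ = 0 ↔ ∀ i ∈ S, σ i = true := by
  unfold wt
  simp [Finset.card_eq_zero, Finset.filter_eq_empty_iff]

/-- Diagonal indicator projection. -/
def ind (p : Cfg N → Prop) [DecidablePred p] : Mat N := diagonal fun σ => if p σ then 1 else 0

lemma norm_ind_le (p : Cfg N → Prop) [DecidablePred p] : ‖ind p‖ ≤ 1 := by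
  refine norm_diagonal_le _ 1 zero_le_one fun σ => ?_
  split_ifs <;> simp

lemma star_ind (p : Cfg N → Prop) [DecidablePred p] : star (ind p) = ind p := by
  unfold ind
  rw [star_eq_conjTranspose, diagonal_conjTranspose]
  congr 1; funext σ; simp only [Pi.star_apply]; split_ifs <;> simp

lemma ind_mul_ind (p q r : Cfg N → Prop) [DecidablePred p] [DecidablePred q] [DecidablePred r]
    (h : ∀ σ, r σ ↔ p σ ∧ q σ) : ind p * ind q = ind r := by
  unfold ind
  rw [diagonal_mul_diagonal]
  congr 1; funext σ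
  by_cases hp : p σ <;> by_cases hq : q σ <;> simp [hp, hq, h σ]

lemma isStarProjection_ind (p : Cfg N → Prop) [DecidablePred p] : IsStarProjection (ind p) :=
  ⟨ind_mul_ind p p p (by simp), star_ind p⟩

/-- Projection on "no excitation in `T`". -/
def PP (T : Finset (Fin N)) : Mat N := ind fun σ => wt T σ = 0

/-- Projection on "more than `w` excitations in `S`". -/
def GG (S : Finset (Fin N)) (w : ℕ) : Mat N := ind fun σ => w < wt S σ

lemma norm_PP_le (T : Finset (Fin N)) : ‖PP T‖ ≤ 1 := norm_ind_le _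
lemma norm_GG_le (T : Finset (Fin N)) (w : ℕ) : ‖GG T w‖ ≤ 1 := norm_ind_le _
lemma star_PP (T : Finset (Fin N)) : star (PP T) = PP T := star_ind _

lemma PP_mul_PP (T T' : Finset (Fin N)) : PP T * PP T' = PP (T ∪ T') := by
  refine ind_mul_ind _ _ _ fun σ => ?_
  simp only [wt_eq_zero_iff, Finset.mem_union]
  constructor
  · intro h; exact ⟨fun i hi => h i (Or.inl hi), fun i hi => h i (Or.inr hi)⟩
  · rintro ⟨h1, h2⟩ i (hi | hi)
    · exact h1 i hi
    · exact h2 i hi

lemma PP_empty : PP (∅ : Finset (Fin N)) = 1 := by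
  unfold PP ind
  simp [wt]

lemma GG_mono (S : Finset (Fin N)) {w w' : ℕ} (h : w ≤ w') : GG S w' * GG S w = GG S w' :=
  ind_mul_ind _ _ _ fun σ => ⟨fun h1 => ⟨h1, lt_of_le_of_lt h h1⟩, fun h1 => h1.1⟩

lemma GG_eq_zero (S : Finset (Fin N)) {w : ℕ} (h : N ≤ w) : GG S w = 0 := by
  unfold GG ind
  have : ∀ σ : Cfg N, ¬ w < wt S σ := fun σ => not_lt.2 ((wt_le S σ).trans h)
  simp [this]

/-- One-qubit projector on a basis vector. -/
def pr (b : Bool) : M2 := diagonal fun c => if c = b then 1 else 0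

lemma ind_all_eq_prodOp (T : Finset (Fin N)) (b : Bool) :
    ind (fun σ : Cfg N => ∀ i ∈ T, σ i = b) = prodOp fun i => if i ∈ T then pr b else 1 := by
  have h : (fun i : Fin N => if i ∈ T then pr b else (1 : M2)) =
      fun i => diagonal (fun c => if i ∈ T then (if c = b then (1 : ℂ) else 0) else 1) := by
    funext i
    by_cases hi : i ∈ T <;> simp [hi, pr]
  rw [h, prodOp_diagonal]
  unfold ind
  congr 1; funext σ
  by_cases hσ : ∀ i ∈ T, σ i = b
  · rw [if_pos hσ]; symm
    refine Finset.prod_eq_one fun i _ => ?_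
    by_cases hi : i ∈ T
    · simp [hi, hσ i hi]
    · simp [hi]
  · rw [if_neg hσ]; symm
    push Not at hσ
    obtain ⟨i, hi, hne⟩ := hσ
    exact Finset.prod_eq_zero (Finset.mem_univ i) (by simp [hi, hne])

lemma PP_eq_prodOp (T : Finset (Fin N)) :
    PP T = prodOp fun i => if i ∈ T then pr true else 1 := by
  rw [← ind_all_eq_prodOp]
  unfold PP ind
  congr 1; funext σ
  simp only [wt_eq_zero_iff]

/-- A product contraction supported on `A`. -/
def Loc (A : Finset (Fin N)) (Q : Mat N) : Prop :=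
  (∃ M : Fin N → M2, Q = prodOp M ∧ ∀ i ∉ A, M i = 1) ∧ ‖Q‖ ≤ 1

lemma Loc.mul {A : Finset (Fin N)} {Q Q' : Mat N} (h : Loc A Q) (h' : Loc A Q') :
    Loc A (Q * Q') := by
  obtain ⟨⟨M, rfl, hM⟩, hn⟩ := h
  obtain ⟨⟨M', rfl, hM'⟩, hn'⟩ := h'
  refine ⟨⟨fun i => M i * M' i, prodOp_mul _ _, fun i hi => by simp [hM i hi, hM' i hi]⟩, ?_⟩
  exact (norm_mul_le _ _).trans (mul_le_one₀ hn (norm_nonneg _) hn')

lemma loc_PP {A T : Finset (Fin N)} (h : T ⊆ A) : Loc A (PP T) :=
  ⟨⟨_, PP_eq_prodOp T, fun i hi => if_neg fun hT => hi (h hT)⟩, norm_PP_le T⟩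

lemma loc_chi (A : Finset (Fin N)) : Loc A (ind fun σ : Cfg N => ∀ i ∈ A, σ i = false) :=
  ⟨⟨_, ind_all_eq_prodOp A false, fun _ hi => if_neg hi⟩, norm_ind_le _⟩

lemma PP_comm_loc {A T : Finset (Fin N)} {Q : Mat N} (h : Loc A Q) (hT : Disjoint T A) :
    PP T * Q = Q * PP T := by
  obtain ⟨⟨M, rfl, hM⟩, -⟩ := h
  refine diagonal_comm_prodOp A M hM _ fun σ τ hστ => ?_
  have : wt T σ = wt T τ := by
    unfold wt
    congr 1
    refine Finset.filter_congr fun i hi => ?_
    rw [hστ i (Finset.disjoint_left.1 hT hi)]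
  simp [this]

/-- Product of one-qubit unitaries. -/
def LocU (g : Mat N) : Prop := ∃ u : Fin N → M2, g = prodOp u ∧ ∀ i, u i ∈ unitary M2

lemma LocU.mem_unitary {g : Mat N} (h : LocU g) : g ∈ unitary (Mat N) := by
  obtain ⟨u, rfl, hu⟩ := h
  exact prodOp_mem_unitary u hu

lemma locU_one : LocU (1 : Mat N) := ⟨fun _ => 1, prodOp_one.symm, fun _ => one_mem _⟩

lemma LocU.mul {g g' : Mat N} (h : LocU g) (h' : LocU g') : LocU (g * g') := by
  obtain ⟨u, rfl, hu⟩ := h
  obtain ⟨u', rfl, hu'⟩ := h'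
  exact ⟨fun i => u i * u' i, prodOp_mul _ _, fun i => mul_mem (hu i) (hu' i)⟩

lemma LocU.star {g : Mat N} (h : LocU g) : LocU (star g) := by
  obtain ⟨u, rfl, hu⟩ := h
  exact ⟨fun i => Star.star (u i), prodOp_star _, fun i => Unitary.star_mem (hu i)⟩

lemma Loc.conj {A : Finset (Fin N)} {Q g : Mat N} (h : Loc A Q) (hg : LocU g) :
    Loc A (star g * Q * g) := by
  have hgu := hg.mem_unitary
  obtain ⟨⟨M, rfl, hM⟩, hn⟩ := h
  obtain ⟨u, rfl, hu⟩ := hg
  refine ⟨⟨fun i => star (u i) * M i * u i, ?_, fun i hi => ?_⟩, ?_⟩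
  · rw [prodOp_star, prodOp_mul, prodOp_mul]
  · simp only [hM i hi, mul_one]; exact (hu i).1
  · rw [CStarRing.norm_mul_mem_unitary _ hgu,
      CStarRing.norm_mem_unitary_mul _ (Unitary.star_mem hgu)]
    exact hn

/-- A layer of diagonal reflections with pairwise disjoint supports inside `S`. -/
inductive DLayer : Finset (Fin N) → Mat N → Prop
  | nil : DLayer ∅ 1
  | cons (T S : Finset (Fin N)) (U : Mat N) : DLayer S U → Disjoint T S →
      DLayer (T ∪ S) (U * (1 - 2 * PP T))

lemma DLayer.diag {S : Finset (Fin N)} {U : Mat N} (h : DLayer S U) :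
    ∃ f : Cfg N → ℂ, U = diagonal f ∧ (∀ σ, f σ = 1 ∨ f σ = -1) ∧
      ∀ σ τ : Cfg N, (∀ i ∈ S, σ i = τ i) → f σ = f τ := by
  induction h with
  | nil => exact ⟨fun _ => 1, by simp, fun _ => Or.inl rfl, fun _ _ _ => rfl⟩
  | cons T S U _ _ ih =>
    obtain ⟨f, rfl, hf, hf'⟩ := ih
    refine ⟨fun σ => f σ * (if wt T σ = 0 then -1 else 1), ?_, fun σ => ?_, fun σ τ h => ?_⟩
    · rw [← diagonal_mul_diagonal]
      congr 1
      ext σ τ
      by_cases hστ : σ = τ
      · subst hστ
        simp only [PP, ind, two_mul, Matrix.sub_apply, Matrix.add_apply, one_apply_eq,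
          diagonal_apply_eq]
        split_ifs <;> norm_num
      · simp [PP, ind, two_mul, hστ]
    · rcases hf σ with h | h <;> simp only [h] <;> split_ifs <;> simp
    · have h1 : f σ = f τ := hf' σ τ fun i hi => h i (Finset.mem_union_right _ hi)
      have h2 : wt T σ = wt T τ := by
        unfold wt
        congr 1
        refine Finset.filter_congr fun i hi => ?_
        rw [h i (Finset.mem_union_left _ hi)]
      simp only [h1, h2]

lemma DLayer.star_eq {S : Finset (Fin N)} {U : Mat N} (h : DLayer S U) : star U = U := by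
  obtain ⟨f, rfl, hf, -⟩ := h.diag
  rw [star_eq_conjTranspose, diagonal_conjTranspose]
  congr 1; funext σ
  rcases hf σ with h | h <;> simp [h]

lemma DLayer.mul_self {S : Finset (Fin N)} {U : Mat N} (h : DLayer S U) : U * U = 1 := by
  obtain ⟨f, rfl, hf, -⟩ := h.diag
  rw [diagonal_mul_diagonal, ← diagonal_one]
  congr 1; funext σ
  rcases hf σ with h | h <;> simp [h]

lemma DLayer.mem_unitary {S : Finset (Fin N)} {U : Mat N} (h : DLayer S U) :
    U ∈ unitary (Mat N) := by
  constructor <;> rw [h.star_eq, h.mul_self]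

/-- Circuits with `t` layers of reflections, in normal form. -/
inductive Circ : ℕ → Mat N → Prop
  | loc (g : Mat N) : LocU g → Circ 0 g
  | step (t : ℕ) (V U g : Mat N) (S : Finset (Fin N)) : Circ t V → DLayer S U → LocU g →
      Circ (t + 1) (g * U * V)

lemma Circ.mem_unitary {t : ℕ} {V : Mat N} (h : Circ t V) : V ∈ unitary (Mat N) := by
  induction h with
  | loc g hg => exact hg.mem_unitary
  | step t V U g S _ hU hg ih => exact mul_mem (mul_mem hg.mem_unitary hU.mem_unitary) ih

lemma Circ.mul_locU {t : ℕ} {V g' : Mat N} (h : Circ t V) (hg' : LocU g') : Circ t (V * g') := by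
  induction h with
  | loc g hg => exact Circ.loc _ (hg.mul hg')
  | step t V U g S _ hU hg ih =>
    rw [mul_assoc]; exact Circ.step t _ U g S ih hU hg

lemma Circ.locU_mul {t : ℕ} {V g' : Mat N} (h : Circ t V) (hg' : LocU g') : Circ t (g' * V) := by
  cases h with
  | loc g hg => exact Circ.loc _ (hg'.mul hg)
  | step t V U g S hV hU hg =>
    have : g' * (g * U * V) = (g' * g) * U * V := by simp only [mul_assoc]
    rw [this]; exact Circ.step t V U _ S hV hU (hg'.mul hg)

lemma Circ.step_right {t : ℕ} {V U' g' : Mat N} {S' : Finset (Fin N)} (h : Circ t V)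
    (hU' : DLayer S' U') (hg' : LocU g') : Circ (t + 1) (V * U' * g') := by
  induction h with
  | loc g hg => exact Circ.step 0 g' U' g S' (Circ.loc _ hg') hU' hg
  | step t V U g S _ hU hg ih =>
    have : g * U * V * U' * g' = g * U * (V * U' * g') := by simp only [mul_assoc]
    rw [this]; exact Circ.step _ _ U g S ih hU hg

lemma Circ.star {t : ℕ} {V : Mat N} (h : Circ t V) : Circ t (star V) := by
  induction h with
  | loc g hg => exact Circ.loc _ hg.star
  | step t V U g S _ hU hg ih =>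
    rw [star_mul, star_mul, hU.star_eq, ← mul_assoc]
    exact ih.step_right hU hg.star

lemma Circ.succ {t : ℕ} {V : Mat N} (h : Circ t V) : Circ (t + 1) V := by
  have := Circ.step t V 1 1 ∅ h DLayer.nil locU_one
  simpa using this

lemma Circ.mono {t t' : ℕ} {V : Mat N} (h : Circ t V) (htt : t ≤ t') : Circ t' V := by
  induction htt with
  | refl => exact h
  | step _ ih => exact ih.succ

end Crest.Agent.R344
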