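import Mathlib

/-! Splitting a projection into a part reachable from the range of a second projection and a
part almost annihilated by it. -/

set_option autoImplicit false

namespace Crest.Agent.R344

lemma pow_sub_pow_succ_le (x : ℝ) (h0 : 0 ≤ x) (h1 : x ≤ 1) (k : ℕ) :
    (k + 1) * (x ^ k - x ^ (k + 1)) ≤ 1 - x ^ (k + 1) := by
  induction k with
  | zero => simp
  | succ k ih =>
    have hk : 0 ≤ x ^ k := pow_nonneg h0 k
    have h2 : x ^ (k + 1) - x ^ (k + 1 + 1) ≤ x ^ k - x ^ (k + 1) := by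
      have : x ^ k - x ^ (k + 1) - (x ^ (k + 1) - x ^ (k + 1 + 1)) = x ^ k * (1 - x) ^ 2 := by ring
      nlinarith [mul_nonneg hk (sq_nonneg (1 - x))]
    have h3 : (0 : ℝ) ≤ k + 1 := by positivity
    push_cast
    nlinarith [mul_le_mul_of_nonneg_left h2 h3]

lemma norm_pow_sub_pow_succ_le {A : Type*} [CStarAlgebra A] (b : A) (hb : ‖star b * b‖ ≤ 1)
    (k : ℕ) : ‖(star b * b) ^ k - (star b * b) ^ (k + 1)‖ ≤ 1 / (k + 1) := by
  set T := star b * b with hT
  have hsa : IsSelfAdjoint T := IsSelfAdjoint.star_mul_self b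
  have e : T ^ k - T ^ (k + 1) = cfc (fun x : ℝ => x ^ k - x ^ (k + 1)) T := by
    rw [cfc_sub _ _ T (by fun_prop) (by fun_prop), cfc_pow_id T k hsa, cfc_pow_id T (k + 1) hsa]
  rw [e]
  refine norm_cfc_le (by positivity) fun x hx => ?_
  have h0 : 0 ≤ x := spectrum_star_mul_self_nonneg x hx
  have h1 : x ≤ 1 := by
    rcases subsingleton_or_nontrivial A with hA | hA
    · simp [spectrum.of_subsingleton] at hx
    have := spectrum.norm_le_norm_of_mem hx
    rw [Real.norm_eq_abs, abs_of_nonneg h0] at this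
    linarith
  have h2 := pow_sub_pow_succ_le x h0 h1 k
  have h3 : x ^ (k + 1) ≤ x ^ k := pow_le_pow_of_le_one h0 h1 (by omega)
  have h4 : 0 ≤ x ^ (k + 1) := pow_nonneg h0 _
  rw [Real.norm_eq_abs, abs_of_nonneg (by linarith), le_div_iff₀ (by positivity)]
  linarith

lemma split_proj {A : Type*} [CStarAlgebra A] (e f : A) (he : IsStarProjection e)
    (hf : IsStarProjection f) (n : ℕ) (hn : 1 ≤ n) :
    ∃ X R : A, e = e * f * X + R ∧ ‖X‖ ≤ n ∧ ‖R‖ ≤ 1 ∧ ‖f * R‖ ^ 2 ≤ 1 / n := by
  have hee : e * e = e := he.isIdempotentElem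
  have hff : f * f = f := hf.isIdempotentElem
  have hse : star e = e := he.isSelfAdjoint
  have hsf : star f = f := hf.isSelfAdjoint
  set b : A := (1 - f) * e with hb
  set T := star b * b with hT
  have hT' : T = e - e * f * e := by
    rw [hT, hb, star_mul, hse, star_sub, star_one, hsf]
    calc e * (1 - f) * ((1 - f) * e) = e * e - e * f * e - e * f * e + e * (f * f) * e := by
          noncomm_ring
      _ = e - e * f * e := by rw [hee, hff]; noncomm_ring
  have hb1 : ‖b‖ ≤ 1 := (norm_mul_le _ _).trans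
    (mul_le_one₀ hf.one_sub.norm_le (norm_nonneg _) he.norm_le)
  have hT1 : ‖T‖ ≤ 1 := by
    rw [hT, CStarRing.norm_star_mul_self]; exact mul_le_one₀ hb1 (norm_nonneg _) hb1
  have heT : e * T = T := by
    rw [hT', mul_sub, ← mul_assoc, ← mul_assoc, hee]
  have hTe : T * e = T := by
    rw [hT', sub_mul, mul_assoc _ e e, hee]
  have hpow : ∀ i, ‖e * T ^ i‖ ≤ 1 := by
    intro i
    induction i with
    | zero => simpa using he.norm_le
    | succ i ih =>
      rw [pow_succ, ← mul_assoc]
      exact (norm_mul_le _ _).trans (mul_le_one₀ ih (norm_nonneg _) hT1)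
  have hsT : star T = T := IsSelfAdjoint.star_mul_self b
  refine ⟨∑ i ∈ Finset.range n, e * T ^ i, e * T ^ n, ?_, ?_, hpow n, ?_⟩
  · have : ∀ m : ℕ, e = e * f * (∑ i ∈ Finset.range m, e * T ^ i) + e * T ^ m := by
      intro m
      induction m with
      | zero => simp
      | succ m ih =>
        rw [Finset.sum_range_succ, mul_add, add_assoc]
        have h : e * f * (e * T ^ m) + e * T ^ (m + 1) = e * T ^ m := by
          rw [pow_succ', ← mul_assoc e T, heT, ← mul_assoc, ← add_mul, hT']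
          congr 1; abel
        rw [h]; exact ih
    exact this n
  · calc ‖∑ i ∈ Finset.range n, e * T ^ i‖ ≤ ∑ i ∈ Finset.range n, ‖e * T ^ i‖ := norm_sum_le _ _
      _ ≤ ∑ _i ∈ Finset.range n, (1 : ℝ) := Finset.sum_le_sum fun i _ => hpow i
      _ = n := by simp
  · obtain ⟨m, rfl⟩ : ∃ m, n = m + 1 := ⟨n - 1, by omega⟩
    have h1 : e * T ^ (m + 1) = T ^ (m + 1) := by rw [pow_succ', ← mul_assoc, heT]
    have h2 : T ^ (m + 1) * e = T ^ (m + 1) := by rw [pow_succ, mul_assoc, hTe]
    rw [sq, ← CStarRing.norm_star_mul_self, h1]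
    have h3 : star (f * T ^ (m + 1)) * (f * T ^ (m + 1)) =
        T ^ (2 * (m + 1)) - T ^ (2 * (m + 1) + 1) := by
      rw [star_mul, star_pow, hsT, hsf]
      have : e * f * e = e - T := by rw [hT']; abel
      calc T ^ (m + 1) * f * (f * T ^ (m + 1)) = (T ^ (m + 1) * e) * (f * f) * (e * T ^ (m + 1)) := by
            rw [h1, h2]; simp only [mul_assoc]
        _ = T ^ (m + 1) * (e * f * e) * T ^ (m + 1) := by rw [hff]; simp only [mul_assoc]
        _ = T ^ (m + 1) * e * T ^ (m + 1) - T ^ (m + 1) * T * T ^ (m + 1) := by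
            rw [this, mul_sub, sub_mul]
        _ = _ := by
            rw [h2, ← pow_add, ← pow_succ, ← pow_add]
            congr 2 <;> ring
    rw [h3]
    refine (norm_pow_sub_pow_succ_le b hT1 _).trans ?_
    refine one_div_le_one_div_of_le (by positivity) ?_
    push_cast; linarith [(Nat.cast_nonneg m : (0 : ℝ) ≤ m)]

end Crest.Agent.R344
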