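import Crest.Agent.R344.Poly
import Crest.Agent.R344.Split

/-! The bootstrap: soft locality of local operators implies soft locality of product
projections. -/

set_option autoImplicit false
set_option maxHeartbeats 400000

open scoped Matrix.Norms.L2Operator
open Matrix

namespace Crest.Agent.R344

variable {N : ℕ}

/-- Local contractions at time `t` create few excitations at time `0`. -/
def XP (N t K : ℕ) : Prop :=
  ∀ V : Mat N, Circ t V → ∀ (S A : Finset (Fin N)) (Q : Mat N) (m : ℕ), Loc A Q → 1 ≤ m →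
    A.card ≤ m → ‖GG S (K * m) * (star V * Q * V) * PP S‖ ≤ 1 / 2 ^ m

/-- Product projections at time `t` create few excitations at time `0`. -/
def YP (N t k Γ : ℕ) : Prop :=
  ∀ V : Mat N, Circ t V → ∀ (S T : Finset (Fin N)) (ρ M : ℕ), 1 ≤ ρ → 1 ≤ M →
    N ≤ ρ ^ (k + 1) * M → ‖GG S (Γ * ρ * M) * (star V * PP T * V) * PP S‖ ≤ 1 / 2 ^ M

lemma norm_mul_le_of_le_one_left {a b : Mat N} (ha : ‖a‖ ≤ 1) : ‖a * b‖ ≤ ‖b‖ :=
  (norm_mul_le _ _).trans (mul_le_of_le_one_left (norm_nonneg _) ha)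

lemma norm_mul_le_of_le_one_right {a b : Mat N} (hb : ‖b‖ ≤ 1) : ‖a * b‖ ≤ ‖a‖ :=
  (norm_mul_le _ _).trans (mul_le_of_le_one_right (norm_nonneg _) hb)

lemma norm_GG_mul_mono (S : Finset (Fin N)) {w w' : ℕ} (h : w ≤ w') (B C : Mat N) :
    ‖GG S w' * B * C‖ ≤ ‖GG S w * B * C‖ := by
  rw [← GG_mono S h, mul_assoc, mul_assoc, ← mul_assoc (GG S w)]
  exact norm_mul_le_of_le_one_left (norm_GG_le _ _)

lemma norm_conj {V : Mat N} (hV : V ∈ unitary (Mat N)) (Q : Mat N) : ‖star V * Q * V‖ = ‖Q‖ := by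
  rw [CStarRing.norm_mul_mem_unitary _ hV,
    CStarRing.norm_mem_unitary_mul _ (Unitary.star_mem hV)]

lemma yp_zero (N t : ℕ) : YP N t 0 1 := by
  intro V _ S T ρ M _ _ h
  rw [GG_eq_zero S (by simpa using h)]
  simp

/-- The linear map `h ↦ a * diagonal h * b`. -/
noncomputable def sandwich (a b : Mat N) : (Cfg N → ℂ) →ₗ[ℂ] Mat N where
  toFun h := a * diagonal h * b
  map_add' h h' := by rw [← add_mul, ← mul_add, diagonal_add]; rfl
  map_smul' c h := by
    rw [diagonal_smul, mul_smul_comm, smul_mul_assoc]; rfl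

lemma PP_decomp (T : Finset (Fin N)) (p : ℕ → ℝ) (hp : p 0 = 1) (B : ℕ) :
    PP T = diagonal (fun σ => (p (wt T σ) : ℂ)) -
      diagonal (fun σ => if 1 ≤ wt T σ ∧ wt T σ ≤ B then (p (wt T σ) : ℂ) else 0) -
      diagonal (fun σ => (p (wt T σ) : ℂ)) * GG T B := by
  unfold PP GG ind
  rw [diagonal_mul_diagonal, diagonal_sub, diagonal_sub]
  congr 1; funext σ
  by_cases h0 : wt T σ = 0
  · simp [h0, hp]
  · by_cases h1 : wt T σ ≤ B
    · have : 1 ≤ wt T σ := by omega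
      simp [h0, h1, this, not_lt.2 h1]
    · simp [h0, h1, not_le.1 h1]

lemma yp_step {t k K Γ l : ℕ} (hl : N + 1 ≤ 2 ^ l) (hΓ : 1 ≤ Γ) (hX : XP N t K)
    (hY : YP N t k Γ) : YP N t (k + 1) (16 * K * (l + 3) ^ 4 * Γ) := by
  intro V hV S T ρ M hρ hM hN
  obtain ⟨L, hL⟩ : ∃ L, L = l + 3 := ⟨_, rfl⟩
  rw [← hL]
  obtain ⟨M', hM'⟩ : ∃ M', M' = M + 3 := ⟨_, rfl⟩
  obtain ⟨r, hr⟩ : ∃ r, r = 2 * L ^ 2 * Γ * ρ := ⟨_, rfl⟩
  have hL3 : 3 ≤ L := by omega
  have hr1 : ρ ≤ r := by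
    rw [hr]; exact Nat.le_mul_of_pos_left _ (by positivity)
  obtain ⟨p, hp0, hp1, hp2⟩ := exists_poly (N := N) r M' l (by omega) (by omega) hl
  rw [← hL] at hp2
  obtain ⟨D, hD⟩ : ∃ D, D = r * M' * L := ⟨_, rfl⟩
  rw [← hD] at hp2
  obtain ⟨m₁, hm₁⟩ : ∃ m₁, m₁ = 2 * (L * D) := ⟨_, rfl⟩
  have hDM : M' ≤ D := by
    rw [hD, mul_assoc]
    exact le_trans (Nat.le_mul_of_pos_right _ (by omega)) (Nat.le_mul_of_pos_left _ (by omega))
  have hLD : 3 * M' ≤ L * D := Nat.mul_le_mul hL3 hDM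
  have hDm : D ≤ m₁ := by
    have : D ≤ L * D := Nat.le_mul_of_pos_left _ (by omega)
    omega
  have hm1 : 1 ≤ m₁ := by omega
  have hMM : M' ≤ 4 * M := by omega
  have hMM' : M ≤ M' := by omega
  have hL0 : 0 < L := by omega
  have hVu := hV.mem_unitary
  obtain ⟨P, hP⟩ : ∃ P, P = star V * PP T * V := ⟨_, rfl⟩
  rw [← hP]
  have hPproj : IsStarProjection P := by
    constructor
    · change P * P = P
      rw [hP]
      calc star V * PP T * V * (star V * PP T * V)
          = star V * PP T * (V * star V) * PP T * V := by simp only [mul_assoc]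
        _ = star V * (PP T * PP T) * V := by rw [hVu.2]; simp only [mul_assoc, mul_one]
        _ = _ := by rw [PP_mul_PP, Finset.union_self]
    · change star P = P
      rw [hP, star_mul, star_mul, star_star, star_PP, mul_assoc]
  obtain ⟨X, R, hsplit, hXn, hRn, hPR⟩ := split_proj (PP S) P (isStarProjection_ind _) hPproj
    (4 ^ M') (Nat.one_le_pow _ _ (by norm_num))
  obtain ⟨a, ha⟩ : ∃ a : ℝ, a = 1 / 2 ^ M' := ⟨_, rfl⟩
  rw [← ha] at hp1
  have ha0 : 0 < a := by rw [ha]; positivity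
  have ha1 : a ≤ 1 := by
    rw [ha, div_le_one (by positivity)]; exact one_le_pow₀ (by norm_num)
  have h4 : ((4 ^ M' : ℕ) : ℝ) * a ^ 2 = 1 := by
    rw [ha]; push_cast
    have : (4 : ℝ) ^ M' = (2 ^ M') ^ 2 := by rw [← pow_mul, mul_comm, pow_mul]; norm_num
    rw [this]; field_simp
  have hPR' : ‖P * R‖ ≤ a := by
    refine (pow_le_pow_iff_left₀ (norm_nonneg _) ha0.le two_ne_zero).1 (hPR.trans (le_of_eq ?_))
    rw [div_eq_iff (by positivity)]; linarith
  obtain ⟨A', hA'⟩ : ∃ A', A' = PP S * P * X := ⟨_, rfl⟩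
  rw [← hA'] at hsplit
  have hA'n : ‖A'‖ ≤ 2 := by
    have : A' = PP S - R := by rw [hsplit]; abel
    rw [this]
    linarith [norm_sub_le (PP S) R, norm_PP_le S]
  have hA'e : PP S * A' = A' := by
    rw [hA', ← mul_assoc, ← mul_assoc, PP_mul_PP, Finset.union_self]
  obtain ⟨G, hG⟩ : ∃ G, G = GG S (16 * K * L ^ 4 * Γ * ρ * M) := ⟨_, rfl⟩
  rw [← hG]
  have hGn : ‖G‖ ≤ 1 := hG ▸ norm_GG_le _ _
  obtain ⟨Λ, hΛ⟩ : ∃ Λ : ℝ, Λ = 2 ^ (L * D) := ⟨_, rfl⟩
  rw [← hΛ] at hp2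
  have hΛ0 : 0 ≤ Λ := by rw [hΛ]; positivity
  have hΛm : Λ * (1 / 2 ^ m₁) ≤ a ^ 3 := by
    rw [hΛ, hm₁, two_mul, pow_add, ha, div_pow, one_pow, ← pow_mul, mul_comm M' 3]
    rw [mul_one_div, div_mul_cancel_left₀ (by positivity), ← one_div]
    exact one_div_le_one_div_of_le (by positivity) (pow_le_pow_right₀ (by norm_num) hLD)
  set dp : Mat N := diagonal (fun σ => (p (wt T σ) : ℂ)) with hdp
  set d1 : Mat N := diagonal (fun σ => if 1 ≤ wt T σ ∧ wt T σ ≤ r ^ 2 * M' then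
    (p (wt T σ) : ℂ) else 0) with hd1
  -- first term
  have t1 : ‖G * (star V * dp * V) * A'‖ ≤ a ^ 3 * 2 := by
    have hφ := (hp2 T).apply ((normSeminorm ℂ (Mat N)).comp (sandwich (G * star V) (V * PP S)))
      (1 / 2 ^ m₁) (by positivity) (fun A hA => by
        have h1 := hX V hV S A _ m₁ (loc_chi A) hm1 (hA.trans hDm)
        have hw : K * m₁ ≤ 16 * K * L ^ 4 * Γ * ρ * M := by
          have e : K * m₁ = 4 * K * L ^ 4 * Γ * ρ * M' := by rw [hm₁, hD, hr]; ring
          rw [e]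
          calc 4 * K * L ^ 4 * Γ * ρ * M' ≤ 4 * K * L ^ 4 * Γ * ρ * (4 * M) :=
                Nat.mul_le_mul_left _ hMM
            _ = _ := by ring
        refine le_trans (le_of_eq ?_) ((norm_GG_mul_mono S hw _ _).trans h1)
        simp only [Seminorm.comp_apply, coe_normSeminorm, sandwich, LinearMap.coe_mk,
          AddHom.coe_mk, mul_assoc, hG]
        rfl)
    simp only [Seminorm.comp_apply, coe_normSeminorm, sandwich, LinearMap.coe_mk,
      AddHom.coe_mk] at hφ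
    have e : G * (star V * dp * V) * A' = (G * star V * dp * (V * PP S)) * A' := by
      conv_lhs => rw [← hA'e]
      simp only [mul_assoc]
    rw [e]
    refine (norm_mul_le _ _).trans ?_
    exact mul_le_mul (hφ.trans hΛm) hA'n (norm_nonneg _) (by positivity)
  -- second term
  have t2 : ‖G * (star V * d1 * V) * A'‖ ≤ a * 2 := by
    refine (norm_mul_le _ _).trans (mul_le_mul ?_ hA'n (norm_nonneg _) ha0.le)
    refine (norm_mul_le_of_le_one_left hGn).trans ?_
    rw [norm_conj hVu]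
    refine norm_diagonal_le _ _ ha0.le fun σ => ?_
    split_ifs with h
    · rw [Complex.norm_real, Real.norm_eq_abs]
      exact hp1 _ h.1 h.2 (wt_le T σ)
    · simpa using ha0.le
  -- third term
  have t3 : ‖G * (star V * (dp * GG T (r ^ 2 * M')) * V) * A'‖ ≤ a := by
    have hB : r ^ 2 * M' = Γ * ρ * m₁ := by rw [hm₁, hD]; nth_rewrite 1 [sq, hr]; ring
    have h1 := hY (star V) hV.star T S ρ m₁ hρ hm1 (by
      refine hN.trans ?_
      rw [pow_succ, mul_assoc]
      refine Nat.mul_le_mul_left _ (le_trans ?_ hDm)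
      rw [hD]
      exact le_trans (Nat.mul_le_mul hr1 hMM') (Nat.le_mul_of_pos_right _ hL0))
    rw [← hB, star_star] at h1
    have h2 : ‖dp‖ ≤ Λ := norm_diagonal_le _ _ hΛ0 fun σ => (hp2 T).norm_le σ
    have e : G * (star V * (dp * GG T (r ^ 2 * M')) * V) * A' =
        G * (star V * (dp * (GG T (r ^ 2 * M') * (V * PP S * star V) * PP T)) * V) * X := by
      rw [hA', hP]; simp only [mul_assoc]
    rw [e]
    refine (norm_mul_le _ _).trans ?_
    have h3 : ‖G * (star V * (dp * (GG T (r ^ 2 * M') * (V * PP S * star V) * PP T)) * V)‖ ≤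
        a ^ 3 := by
      refine (norm_mul_le_of_le_one_left hGn).trans ?_
      rw [norm_conj hVu]
      refine (norm_mul_le _ _).trans (le_trans ?_ hΛm)
      exact mul_le_mul h2 h1 (norm_nonneg _) hΛ0
    calc _ ≤ a ^ 3 * ((4 ^ M' : ℕ) : ℝ) := mul_le_mul h3 hXn (norm_nonneg _) (by positivity)
      _ = a * (((4 ^ M' : ℕ) : ℝ) * a ^ 2) := by ring
      _ = a := by rw [h4, mul_one]
  have t0 : ‖G * (P * R)‖ ≤ a := (norm_mul_le_of_le_one_left hGn).trans hPR'
  have e : G * P * PP S = G * (P * R) + (G * (star V * dp * V) * A' - G * (star V * d1 * V) * A' -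
      G * (star V * (dp * GG T (r ^ 2 * M')) * V) * A') := by
    have e1 : G * P * A' = G * (star V * dp * V) * A' - G * (star V * d1 * V) * A' -
        G * (star V * (dp * GG T (r ^ 2 * M')) * V) * A' := by
      conv_lhs => rw [hP, PP_decomp T p hp0 (r ^ 2 * M')]
      simp only [mul_sub, sub_mul]
      rfl
    rw [← e1]
    conv_lhs => rw [hsplit]
    rw [mul_add, add_comm, mul_assoc G P R]
  rw [e]
  have ha3 : a ^ 3 ≤ a := pow_le_of_le_one ha0.le ha1 (by norm_num)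
  have hfin : 8 * a = 1 / 2 ^ M := by
    rw [ha, hM', pow_add]; field_simp; norm_num
  refine (norm_add_le _ _).trans ?_
  have := norm_sub_le (G * (star V * dp * V) * A' - G * (star V * d1 * V) * A')
    (G * (star V * (dp * GG T (r ^ 2 * M')) * V) * A')
  have := norm_sub_le (G * (star V * dp * V) * A') (G * (star V * d1 * V) * A')
  linarith

lemma yp_of_xp {t K l : ℕ} (hl : N + 1 ≤ 2 ^ l) (hK : 1 ≤ K) (hX : XP N t K) (k : ℕ) :
    YP N t k ((16 * K * (l + 3) ^ 4) ^ k) := by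
  induction k with
  | zero => simpa using yp_zero N t
  | succ k ih =>
    rw [pow_succ']
    exact yp_step hl (Nat.one_le_pow _ _ (by positivity)) hX ih

end Crest.Agent.R344
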