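import Crest.Agent.R344.Basic
import Crest.Prelude.Def_QCircuit

/-! Normal form of the circuits of the statement. -/

set_option autoImplicit false
set_option maxHeartbeats 400000

open scoped Matrix.Norms.L2Operator
open Matrix Crest.Quantum.Circuit

namespace Crest.Agent.R344

variable {N : ℕ}

lemma prodOp_single_mulVec (M : Fin N → M2) (i : Fin N) (hM : ∀ j, j ≠ i → M j = 1)
    (ψ : Cfg N → ℂ) (σ : Cfg N) :
    (prodOp M *ᵥ ψ) σ = ∑ b : Bool, M i (σ i) b * ψ (Function.update σ i b) := by
  symm
  simp only [mulVec, dotProduct]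
  refine Finset.sum_of_injOn (fun b => Function.update σ i b) ?_ (fun _ _ => Finset.mem_univ _)
    ?_ ?_
  · intro b _ b' _ h
    simpa using congrFun h i
  · intro τ _ hτ
    have : ∃ j, j ≠ i ∧ σ j ≠ τ j := by
      by_contra hc
      push Not at hc
      apply hτ
      refine ⟨τ i, by simp, ?_⟩
      funext j
      by_cases hj : j = i
      · subst hj; simp
      · simp [Function.update_of_ne hj, hc j hj]
    obtain ⟨j, hj, hne⟩ := this
    have : prodOp M σ τ = 0 := by
      rw [prodOp_apply]
      refine Finset.prod_eq_zero (Finset.mem_univ j) ?_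
      rw [hM j hj]; exact one_apply_ne hne
    simp [this]
  · intro b _
    congr 1
    rw [prodOp_apply, Finset.prod_eq_single i]
    · simp
    · intro j _ hj
      rw [hM j hj, Function.update_of_ne hj]; simp
    · simp

/-- The Hadamard matrix. -/
noncomputable def had : M2 :=
  Matrix.of fun a b => if a && b then -((Real.sqrt 2 : ℝ) : ℂ)⁻¹ else ((Real.sqrt 2 : ℝ) : ℂ)⁻¹

lemma sqrt_two_inv_sq : ((Real.sqrt 2 : ℝ) : ℂ)⁻¹ * ((Real.sqrt 2 : ℝ) : ℂ)⁻¹ = 1 / 2 := by
  rw [← mul_inv, ← Complex.ofReal_mul, Real.mul_self_sqrt (by norm_num)]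
  norm_num

lemma star_had : star had = had := by
  ext a b
  cases a <;> cases b <;> simp [had, star_eq_conjTranspose, conjTranspose_apply]

lemma had_mul_had : had * had = 1 := by
  have := sqrt_two_inv_sq
  ext a b
  cases a <;> cases b <;> simp [had, Matrix.mul_apply] <;> linear_combination 2 * this

lemma had_mem_unitary : had ∈ unitary M2 := by
  constructor <;> rw [star_had, had_mul_had]

lemma had_pr_had (a b : Bool) : (had * pr true * had) a b = if a = b then 1 / 2 else -(1 / 2) := by
  have := sqrt_two_inv_sq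
  cases a <;> cases b <;> simp [had, pr, Matrix.mul_apply, diagonal_apply] <;>
    first | linear_combination this | linear_combination -this

lemma gate_normal (g : Gate N) (hg : g.WellFormed) :
    ∃ (h₁ h₂ : Fin N → M2) (W : Mat N), (∀ i, h₁ i ∈ unitary M2) ∧ (∀ i, h₂ i ∈ unitary M2) ∧
      (∀ i ∉ g.support, h₁ i = 1) ∧ (∀ i ∉ g.support, h₂ i = 1) ∧
      (W = 1 ∨ W = 1 - 2 * PP g.support) ∧
      ∀ ψ, g.apply ψ = (prodOp h₁ * W * prodOp h₂) *ᵥ ψ := by
  cases g with
  | oneQubit i U =>
    refine ⟨fun j => if j = i then U else 1, fun _ => 1, 1, fun j => ?_, fun _ => one_mem _,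
      fun j hj => ?_, fun _ _ => rfl, Or.inl rfl, fun ψ => ?_⟩
    · beta_reduce
      split_ifs
      · exact hg
      · exact one_mem _
    · simp only [Gate.support, Finset.mem_singleton] at hj
      simp [hj]
    · funext σ
      rw [prodOp_one, mul_one, mul_one, prodOp_single_mulVec _ i (fun j hj => if_neg hj)]
      simp [Gate.apply]
  | toffoli S t =>
    have hu : ∀ j : Fin N, (if j = t then had else 1) ∈ unitary M2 := fun j => by
      split_ifs
      · exact had_mem_unitary
      · exact one_mem _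
    have h1 : ∀ j ∉ (Gate.toffoli S t).support, (if j = t then had else 1) = (1 : M2) :=
      fun j hj => by
        simp only [Gate.support, Finset.mem_insert, not_or] at hj
        simp [hj.1]
    have ht : t ∉ S := hg
    refine ⟨_, _, _, hu, hu, h1, h1, Or.inr rfl, fun ψ => ?_⟩
    have e1 : prodOp (fun j : Fin N => if j = t then had else 1) *
        prodOp (fun j : Fin N => if j = t then had else 1) = 1 := by
      rw [prodOp_mul, ← prodOp_one]
      congr 1; funext j
      split_ifs
      · exact had_mul_had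
      · simp
    have e2 : prodOp (fun j : Fin N => if j = t then had else 1) * PP (insert t S) *
        prodOp (fun j : Fin N => if j = t then had else 1) =
        PP S * prodOp (fun j : Fin N => if j = t then had * pr true * had else 1) := by
      rw [PP_eq_prodOp, PP_eq_prodOp, prodOp_mul, prodOp_mul, prodOp_mul]
      congr 1; funext j
      by_cases hj : j = t
      · subst hj; simp [ht]
      · simp [hj]
    have e3 : prodOp (fun j : Fin N => if j = t then had else 1) *
        (1 - 2 * PP (Gate.toffoli S t).support) *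
        prodOp (fun j : Fin N => if j = t then had else 1) =
        1 - (2 : ℂ) • (PP S * prodOp (fun j : Fin N => if j = t then had * pr true * had else 1)) := by
      rw [← e2, two_smul, two_mul, mul_sub, sub_mul, mul_one, e1, mul_add, add_mul]
      rfl
    rw [e3]
    funext σ
    rw [sub_mulVec, one_mulVec, smul_mulVec, ← mulVec_mulVec]
    simp only [Pi.sub_apply, Pi.smul_apply, PP, ind, mulVec_diagonal, smul_eq_mul]
    rw [prodOp_single_mulVec _ t (fun j hj => if_neg hj)]
    simp only [if_true, had_pr_had, Gate.apply, wt_eq_zero_iff]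
    have hself : ψ (Function.update σ t (σ t)) = ψ σ := by simp
    by_cases hS : ∀ i ∈ S, σ i = true
    · rw [if_pos hS, decide_eq_true hS, ← hself]
      cases hσ : σ t <;> simp <;> ring
    · rw [if_neg hS, decide_eq_false hS]
      simp

lemma layer_normal (L : List (Gate N)) (hL : LayerWF L) :
    ∃ (u₁ u₂ : Fin N → M2) (S : Finset (Fin N)) (U : Mat N), (∀ i, u₁ i ∈ unitary M2) ∧
      (∀ i, u₂ i ∈ unitary M2) ∧ DLayer S U ∧
      (∀ i, (∀ g ∈ L, i ∉ g.support) → u₂ i = 1 ∧ i ∉ S) ∧
      ∀ ψ, applyLayer L ψ = (prodOp u₁ * U * prodOp u₂) *ᵥ ψ := by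
  induction L with
  | nil =>
    exact ⟨fun _ => 1, fun _ => 1, ∅, 1, fun _ => one_mem _, fun _ => one_mem _, DLayer.nil,
      fun _ _ => ⟨rfl, by simp⟩, fun ψ => by simp [applyLayer, prodOp_one]⟩
  | cons g L ih =>
    obtain ⟨hwf, hpw⟩ := hL
    rw [List.pairwise_cons] at hpw
    obtain ⟨u₁, u₂, S, U, hu₁, hu₂, hU, hsupp, happ⟩ :=
      ih ⟨fun g' hg' => hwf g' (List.mem_cons_of_mem _ hg'), hpw.2⟩
    obtain ⟨h₁, h₂, W, hh₁, hh₂, hs₁, hs₂, hW, hg⟩ := gate_normal g (hwf g List.mem_cons_self)
    have hin : ∀ i ∈ g.support, u₂ i = 1 ∧ i ∉ S := fun i hi =>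
      hsupp i fun g' hg' => Finset.disjoint_left.1 (hpw.1 g' hg') hi
    have c1 : prodOp u₂ * prodOp h₁ = prodOp h₁ * prodOp u₂ := by
      rw [prodOp_mul, prodOp_mul]
      congr 1; funext i
      by_cases hi : i ∈ g.support
      · simp [(hin i hi).1]
      · simp [hs₁ i hi]
    have c2 : U * prodOp h₁ = prodOp h₁ * U := by
      obtain ⟨f, rfl, -, hf⟩ := hU.diag
      exact diagonal_comm_prodOp g.support h₁ hs₁ f fun σ τ h =>
        hf σ τ fun i hi => h i fun hi' => (hin i hi').2 hi
    have c3 : prodOp u₂ * W = W * prodOp u₂ := by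
      rcases hW with rfl | rfl
      · simp
      · have : PP g.support * prodOp u₂ = prodOp u₂ * PP g.support := by
          refine diagonal_comm_prodOp g.supportᶜ u₂ (fun i hi => (hin i (by simpa using hi)).1) _
            fun σ τ h => ?_
          have : wt g.support σ = wt g.support τ := by
            unfold wt
            congr 1
            exact Finset.filter_congr fun i hi => by rw [h i (by simpa using hi)]
          simp [this]
        rw [two_mul, mul_sub, sub_mul, mul_add, add_mul, this, mul_one, one_mul]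
    have hfin : ∀ ψ, applyLayer (g :: L) ψ =
        (prodOp (fun i => u₁ i * h₁ i) * (U * W) * prodOp (fun i => u₂ i * h₂ i)) *ᵥ ψ := by
      intro ψ
      have : applyLayer (g :: L) ψ = applyLayer L (g.apply ψ) := rfl
      rw [this, happ, hg, mulVec_mulVec, ← prodOp_mul, ← prodOp_mul]
      congr 1
      calc prodOp u₁ * U * prodOp u₂ * (prodOp h₁ * W * prodOp h₂)
          = prodOp u₁ * U * (prodOp u₂ * prodOp h₁) * W * prodOp h₂ := by simp only [mul_assoc]
        _ = prodOp u₁ * (U * prodOp h₁) * (prodOp u₂ * W) * prodOp h₂ := by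
          rw [c1]; simp only [mul_assoc]
        _ = _ := by rw [c2, c3]; simp only [mul_assoc]
    have hu₂' : ∀ i, (∀ g' ∈ g :: L, i ∉ g'.support) → u₂ i * h₂ i = 1 ∧ i ∉ S ∧ i ∉ g.support :=
      fun i hi => by
        have a1 := hi g List.mem_cons_self
        have a2 := hsupp i fun g' hg' => hi g' (List.mem_cons_of_mem _ hg')
        exact ⟨by rw [a2.1, hs₂ i a1, mul_one], a2.2, a1⟩
    rcases hW with rfl | rfl
    · exact ⟨_, _, S, U * 1, fun i => mul_mem (hu₁ i) (hh₁ i), fun i => mul_mem (hu₂ i) (hh₂ i),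
        by simpa using hU, fun i hi => ⟨(hu₂' i hi).1, (hu₂' i hi).2.1⟩, hfin⟩
    · exact ⟨_, _, g.support ∪ S, _, fun i => mul_mem (hu₁ i) (hh₁ i),
        fun i => mul_mem (hu₂ i) (hh₂ i),
        DLayer.cons _ S U hU (Finset.disjoint_left.2 fun i hi => (hin i hi).2),
        fun i hi => ⟨(hu₂' i hi).1, by
          rw [Finset.mem_union, not_or]; exact ⟨(hu₂' i hi).2.2, (hu₂' i hi).2.1⟩⟩, hfin⟩

lemma circuit_normal (C : List (List (Gate N))) (hC : CircuitWF C) :
    ∃ V : Mat N, Circ C.length V ∧ ∀ ψ, runCircuit C ψ = V *ᵥ ψ := by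
  induction C with
  | nil => exact ⟨1, Circ.loc _ locU_one, fun ψ => by simp [runCircuit]⟩
  | cons L C ih =>
    obtain ⟨V, hV, happ⟩ := ih fun L' hL' => hC L' (List.mem_cons_of_mem _ hL')
    obtain ⟨u₁, u₂, S, U, hu₁, hu₂, hU, -, hL⟩ := layer_normal L (hC L List.mem_cons_self)
    refine ⟨V * prodOp u₁ * U * prodOp u₂,
      (hV.mul_locU ⟨u₁, rfl, hu₁⟩).step_right hU ⟨u₂, rfl, hu₂⟩, fun ψ => ?_⟩
    have : runCircuit (L :: C) ψ = runCircuit C (applyLayer L ψ) := rfl
    rw [this, happ, hL, mulVec_mulVec]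
    simp only [mul_assoc]

end Crest.Agent.R344
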