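import Crest.Agent.R344.XStep
import Crest.Agent.R344.Gates

/-! From soft locality to the parity lower bound. -/

set_option autoImplicit false
set_option maxHeartbeats 400000

open scoped Matrix.Norms.L2Operator
open Matrix Crest.Quantum.Circuit

namespace Crest.Agent.R344

variable {N : ℕ}

lemma norm_entry_le (A : Mat N) (σ τ : Cfg N) : ‖A σ τ‖ ≤ ‖A‖ := by
  have h := l2_opNorm_mulVec A (EuclideanSpace.single τ (1 : ℂ))
  rw [EuclideanSpace.norm_single, norm_one, mul_one] at h
  refine le_trans (le_of_eq ?_) ((PiLp.norm_apply_le _ σ).trans h)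
  simp

/-- Sign of a bit. -/
def sg (b : Bool) : ℂ := if b then -1 else 1

/-- The bit flip. -/
def flipM : M2 := Matrix.of fun a b => if a = b then 0 else 1

lemma flipM_mem_unitary : flipM ∈ unitary M2 := by
  constructor <;> ext a b <;> cases a <;> cases b <;> simp [flipM, Matrix.mul_apply]

/-- The local change of frame. -/
noncomputable def frame (n : ℕ) (i : Fin N) (b : Bool) : M2 :=
  if (i : ℕ) < n then (if b then had else had * flipM) else 1

lemma frame_mem_unitary (n : ℕ) (i : Fin N) (b : Bool) : frame n i b ∈ unitary M2 := by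
  unfold frame
  split_ifs
  · exact had_mem_unitary
  · exact mul_mem had_mem_unitary flipM_mem_unitary
  · exact one_mem _

/-- Weight of a wire value. -/
def wa (n : ℕ) (i : Fin N) (b : Bool) : ℝ := if (i : ℕ) < n then 1 else if b then 0 else 2

/-- Sign of a wire value. -/
def ws (n : ℕ) (i : Fin N) (b : Bool) : ℂ := if (i : ℕ) < n then sg b else 1

lemma frame_sum (n : ℕ) (i : Fin N) (a c : Bool) :
    ∑ b : Bool, star (frame n i b a false) * frame n i b c (decide ((i : ℕ) < n)) =
      diagonal (fun e => (wa n i e : ℂ) * ws n i e) a c := by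
  have := sqrt_two_inv_sq
  by_cases h : (i : ℕ) < n
  · cases a <;> cases c <;> simp [frame, h, wa, ws, sg, had, flipM, Matrix.mul_apply] <;>
      first | linear_combination 2 * this | linear_combination -2 * this
  · rw [decide_eq_false h]
    cases a <;> cases c <;> simp [frame, h, wa, ws]

lemma frame_trace (n : ℕ) (O : Mat N) :
    ∑ y : Cfg N, (star (prodOp fun i => frame n i (y i)) * O * prodOp fun i => frame n i (y i))
      (fun _ => false) (fun i => decide ((i : ℕ) < n)) =
    ∑ σ : Cfg N, (∏ i, (wa n i (σ i) : ℂ)) * ((∏ i, ws n i (σ i)) * O σ σ) := by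
  have h1 : ∀ σ τ : Cfg N, ∑ y : Cfg N, (∏ i, star (frame n i (y i) (σ i) false)) *
      ∏ i, frame n i (y i) (τ i) (decide ((i : ℕ) < n)) =
      diagonal (fun σ : Cfg N => ∏ i, ((wa n i (σ i) : ℂ) * ws n i (σ i))) σ τ := by
    intro σ τ
    rw [← prodOp_diagonal (fun i e => (wa n i e : ℂ) * ws n i e), prodOp_apply]
    simp only [← frame_sum]
    rw [Finset.prod_univ_sum]
    simp only [Fintype.piFinset_univ, Finset.prod_mul_distrib]
  simp only [Matrix.mul_apply, prodOp_star, prodOp_apply, Finset.sum_mul, star_apply]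
  rw [Finset.sum_comm]
  have h2 : ∀ τ : Cfg N, ∑ y : Cfg N, ∑ σ : Cfg N,
      (∏ i, star (frame n i (y i) (σ i) false)) * O σ τ *
        ∏ i, frame n i (y i) (τ i) (decide ((i : ℕ) < n)) =
      (∏ i, (wa n i (τ i) : ℂ)) * ((∏ i, ws n i (τ i)) * O τ τ) := by
    intro τ
    rw [Finset.sum_comm]
    have h3 : ∀ σ : Cfg N, ∑ y : Cfg N, (∏ i, star (frame n i (y i) (σ i) false)) * O σ τ *
        ∏ i, frame n i (y i) (τ i) (decide ((i : ℕ) < n)) =
        diagonal (fun σ : Cfg N => ∏ i, ((wa n i (σ i) : ℂ) * ws n i (σ i))) σ τ * O σ τ := by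
      intro σ
      rw [← h1, Finset.sum_mul]
      exact Finset.sum_congr rfl fun y _ => by ring
    simp only [h3]
    rw [Finset.sum_eq_single τ]
    · rw [diagonal_apply_eq, Finset.prod_mul_distrib, mul_assoc]
    · intro σ _ hσ; rw [diagonal_apply_ne _ hσ, zero_mul]
    · simp
  exact Finset.sum_congr rfl fun τ _ => h2 τ

lemma sg_parity {n : ℕ} (hn : n ≤ N) (x : Fin n → Bool) :
    ∏ i : Fin N, ws n i (inputString n x i) = sg (parity x) := by
  have h1 : ∏ j : Fin n, sg (x j) = ∏ i : Fin N, ws n i (inputString n x i) := by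
    refine Finset.prod_of_injOn (Fin.castLE hn) (Fin.castLE_injective hn).injOn
      (fun _ _ => Finset.mem_univ _) (fun i _ hi => ?_) (fun j _ => ?_)
    · have : ¬ (i : ℕ) < n := fun h => hi ⟨⟨i, h⟩, by simp, rfl⟩
      simp [ws, this]
    · simp [ws, inputString]
  rw [← h1]
  unfold sg parity
  rw [Finset.prod_ite, Finset.prod_const_one, mul_one, Finset.prod_const]
  generalize (Finset.univ.filter fun i => x i = true).card = k
  induction k with
  | zero => simp
  | succ k ih =>
    rw [pow_succ, ih, Nat.bodd_succ]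
    cases Nat.bodd k <;> simp

lemma diag_entry {V : Mat N} (hV : V ∈ unitary (Mat N)) (o : Fin N) (b : Bool) (τ : Cfg N) :
    sg b * (star V * diagonal (fun σ : Cfg N => sg (σ o)) * V) τ τ =
      ((2 * outcomeProb o b (V *ᵥ basisState τ) - 1 : ℝ) : ℂ) := by
  have h0 : ∀ σ, (V *ᵥ basisState τ) σ = V σ τ := by
    intro σ
    simp [mulVec, dotProduct, basisState]
  have h1 : ∑ σ, ((‖V σ τ‖ ^ 2 : ℝ) : ℂ) = 1 := by
    have := congrFun (congrFun hV.1 τ) τ
    rw [Matrix.mul_apply, one_apply_eq] at this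
    rw [← this]
    refine Finset.sum_congr rfl fun σ _ => ?_
    rw [star_apply, Complex.star_def, Complex.conj_mul']; push_cast; rfl
  rw [Matrix.mul_apply, Finset.mul_sum, Complex.ofReal_sub, Complex.ofReal_one, ← h1]
  unfold outcomeProb
  rw [Finset.mul_sum, Complex.ofReal_sum, ← Finset.sum_sub_distrib]
  refine Finset.sum_congr rfl fun σ _ => ?_
  rw [mul_diagonal, star_apply, h0, Complex.star_def]
  have h2 : (starRingEnd ℂ) (V σ τ) * V σ τ = ((‖V σ τ‖ ^ 2 : ℝ) : ℂ) := by
    rw [Complex.conj_mul']; push_cast; rfl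
  cases b <;> cases hσ : σ o <;> simp only [sg] <;> push_cast at h2 ⊢ <;> simp <;>
    first | linear_combination h2 | linear_combination -h2

lemma parity_bound {t K m n : ℕ} (hX : XP N t K) (hm : 1 ≤ m) (hKn : K * m < n) (hn : n ≤ N)
    {V : Mat N} (hV : Circ t V) (o : Fin N) (ε : ℝ)
    (h : ∀ x : Fin n → Bool,
      1 / 2 + ε ≤ outcomeProb o (parity x) (V *ᵥ basisState (inputString n x))) :
    2 * ε ≤ 1 / 2 ^ m := by
  obtain ⟨Z, hZ⟩ : ∃ Z : Mat N, Z = diagonal (fun σ : Cfg N => sg (σ o)) := ⟨_, rfl⟩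
  have hZloc : Loc {o} Z := by
    refine ⟨⟨fun i => diagonal fun b => if i = o then sg b else 1, ?_, fun i hi => ?_⟩, ?_⟩
    · rw [prodOp_diagonal, hZ]
      congr 1; funext σ; simp
    · rw [Finset.mem_singleton] at hi; simp [hi]
    · rw [hZ]
      refine norm_diagonal_le _ _ zero_le_one fun σ => ?_
      unfold sg; split_ifs <;> simp
  have htr := frame_trace n (star V * Z * V)
  have hup : ‖∑ y : Cfg N, (star (prodOp fun i => frame n i (y i)) * (star V * Z * V) *
      prodOp fun i => frame n i (y i)) (fun _ => false) (fun i => decide ((i : ℕ) < n))‖ ≤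
      2 ^ N * (1 / 2 ^ m) := by
    refine (norm_sum_le _ _).trans ?_
    have : ∀ y : Cfg N, ‖(star (prodOp fun i => frame n i (y i)) * (star V * Z * V) *
        prodOp fun i => frame n i (y i)) (fun _ => false) (fun i => decide ((i : ℕ) < n))‖ ≤
        1 / 2 ^ m := by
      intro y
      have h1 := hX _ (hV.mul_locU ⟨fun i => frame n i (y i), rfl, fun i => frame_mem_unitary n i _⟩)
        (Finset.univ.filter fun i : Fin N => (i : ℕ) < n) {o} Z m hZloc hm (by simpa using hm)
      refine le_trans (le_of_eq ?_) ((norm_entry_le _ (fun _ => false)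
        (fun i => decide ((i : ℕ) < n))).trans h1)
      unfold GG PP ind
      rw [mul_diagonal, diagonal_mul, if_pos, if_pos, one_mul, mul_one, star_mul]
      · simp only [mul_assoc]
      · refine (wt_eq_zero_iff _ _).2 fun i hi => ?_
        simpa using hi
      · simp only [wt, Finset.filter_true, Fin.card_filter_val_lt]; omega
    refine (Finset.sum_le_sum fun y _ => this y).trans (le_of_eq ?_)
    simp
  rw [htr] at hup
  have hwa : ∀ (i : Fin N) (b : Bool), 0 ≤ wa n i b := by
    intro i b; unfold wa; split_ifs <;> norm_num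
  have hlow : ∀ σ : Cfg N, (∏ i, wa n i (σ i)) * (2 * ε) ≤
      ((∏ i, (wa n i (σ i) : ℂ)) * ((∏ i, ws n i (σ i)) * (star V * Z * V) σ σ)).re := by
    intro σ
    rw [← Complex.ofReal_prod, Complex.re_ofReal_mul]
    by_cases hσ : ∀ i : Fin N, ¬ (i : ℕ) < n → σ i = false
    · refine mul_le_mul_of_nonneg_left ?_ (Finset.prod_nonneg fun i _ => hwa i _)
      have e : σ = inputString n (fun j => σ (Fin.castLE hn j)) := by
        funext i
        unfold inputString
        split_ifs with hi
        · rfl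
        · exact hσ i hi
      have h1 := h (fun j => σ (Fin.castLE hn j))
      have h2 := sg_parity hn (fun j => σ (Fin.castLE hn j))
      rw [← e] at h1 h2
      rw [h2, hZ, diag_entry hV.mem_unitary, Complex.ofReal_re]
      linarith
    · push Not at hσ
      obtain ⟨i, hi, hσi⟩ := hσ
      have : ∏ i, wa n i (σ i) = 0 :=
        Finset.prod_eq_zero (Finset.mem_univ i) (by simp [wa, not_lt.2 hi, hσi])
      simp [this]
  have hsum : ∑ σ : Cfg N, ∏ i, wa n i (σ i) = 2 ^ N := by
    have := Finset.prod_univ_sum (fun _ : Fin N => (Finset.univ : Finset Bool)) (wa n)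
    rw [Fintype.piFinset_univ] at this
    rw [← this]
    have h2 : ∀ i : Fin N, ∑ b : Bool, wa n i b = 2 := by
      intro i
      by_cases hi : (i : ℕ) < n
      · simp [wa, hi]
      · simp [wa, hi]
    simp only [h2]
    simp
  have h3 := (Finset.sum_le_sum fun σ (_ : σ ∈ Finset.univ) => hlow σ)
  rw [← Finset.sum_mul, hsum, ← Complex.re_sum] at h3
  have h4 := (h3.trans (Complex.re_le_norm _)).trans hup
  exact le_of_mul_le_mul_left h4 (by positivity)

theorem main (d c : ℕ) (ε : ℝ) (hε : 0 < ε) :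
    ∃ n₀ : ℕ, ∀ n ≥ n₀, ∀ N : ℕ, n ≤ N → N ≤ n ^ c →
      ∀ C : List (List (Gate N)), CircuitWF C → C.length ≤ d →
        ∀ o : Fin N, ∃ x : Fin n → Bool,
          outcomeProb o (parity x) (runCircuit C (basisState (inputString n x))) < 1 / 2 + ε := by
  obtain ⟨m₀, hm₀⟩ := exists_pow_lt_of_lt_one (show 0 < 2 * ε by positivity)
    (show (1 / 2 : ℝ) < 1 by norm_num)
  obtain ⟨N₀, hN₀⟩ := xp_eventually d (2 * (c + 1)) (by omega)
  refine ⟨max N₀ ((m₀ + 1) ^ 2 + 1), fun n hn N hnN hNn C hC hlen o => ?_⟩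
  have hn1 : (m₀ + 1) ^ 2 < n := lt_of_lt_of_le (Nat.lt_succ_self _) ((le_max_right _ _).trans hn)
  have hn0 : 1 ≤ n := by omega
  obtain ⟨K, -, hKN, hX⟩ := hN₀ N (((le_max_left _ _).trans hn).trans hnN)
  have hK : K ^ 2 ≤ n := by
    rw [← Nat.pow_le_pow_iff_left (n := c + 1) (by omega), ← pow_mul]
    exact hKN.trans (hNn.trans (Nat.pow_le_pow_right hn0 (by omega)))
  have hKm : K * (m₀ + 1) < n := by
    rw [← Nat.pow_lt_pow_iff_left (n := 2) (by omega), mul_pow, sq n]
    exact lt_of_le_of_lt (Nat.mul_le_mul_right _ hK) (Nat.mul_lt_mul_of_pos_left hn1 hn0)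
  obtain ⟨V, hV, happ⟩ := circuit_normal C hC
  by_contra hcon
  push Not at hcon
  simp only [happ] at hcon
  have h1 := parity_bound hX (by omega) hKm hnN (hV.mono hlen) o ε hcon
  have h2 : (1 : ℝ) / 2 ^ (m₀ + 1) ≤ (1 / 2) ^ m₀ := by
    rw [_root_.one_div_pow]
    exact one_div_le_one_div_of_le (by positivity) (pow_le_pow_right₀ (by norm_num) (by omega))
  linarith

end Crest.Agent.R344
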