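import Crest.Agent.R344.Basic

/-! Low-degree representations of functions on the cube and the approximation of AND. -/

set_option autoImplicit false

namespace Crest.Agent.R344

variable {N : ℕ}

/-- The monomial "all wires of `A` are excited". -/
def chi (A : Finset (Fin N)) : Cfg N → ℂ := fun σ => if ∀ i ∈ A, σ i = false then 1 else 0

/-- `f` behaves like a polynomial of degree `D` in the monomials `chi` with `ℓ¹` norm `Λ`. -/
def Rep (D : ℕ) (Λ : ℝ) (f : Cfg N → ℂ) : Prop :=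
  ∀ (φ : Seminorm ℂ (Cfg N → ℂ)) (ε : ℝ) (D0 : ℕ), 0 ≤ ε →
    (∀ A : Finset (Fin N), A.card ≤ D0 + D → φ (chi A) ≤ ε) →
    ∀ A : Finset (Fin N), A.card ≤ D0 → φ (f * chi A) ≤ Λ * ε

lemma Rep.mono {D D' : ℕ} {Λ Λ' : ℝ} {f : Cfg N → ℂ} (h : Rep D Λ f) (hD : D ≤ D')
    (hΛ : Λ ≤ Λ') : Rep D' Λ' f := by
  intro φ ε D0 hε hφ A hA
  exact (h φ ε D0 hε (fun B hB => hφ B (by omega)) A hA).trans
    (mul_le_mul_of_nonneg_right hΛ hε)

lemma rep_const (c : ℂ) : Rep (N := N) 0 ‖c‖ (fun _ => c) := by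
  intro φ ε D0 hε hφ A hA
  have : (fun _ : Cfg N => c) * chi A = c • chi A := by funext σ; simp
  rw [this, map_smul_eq_mul]
  exact mul_le_mul_of_nonneg_left (hφ A (by omega)) (norm_nonneg _)

lemma Rep.add {D : ℕ} {Λ Λ' : ℝ} {f g : Cfg N → ℂ} (h : Rep D Λ f) (h' : Rep D Λ' g) :
    Rep D (Λ + Λ') (f + g) := by
  intro φ ε D0 hε hφ A hA
  rw [add_mul, add_mul]
  exact (map_add_le_add φ _ _).trans (add_le_add (h φ ε D0 hε hφ A hA) (h' φ ε D0 hε hφ A hA))

lemma Rep.mul {D D' : ℕ} {Λ Λ' : ℝ} {f g : Cfg N → ℂ} (h : Rep D Λ f) (h' : Rep D' Λ' g)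
    (hΛ : 0 ≤ Λ) : Rep (D + D') (Λ * Λ') (f * g) := by
  intro φ ε D0 hε hφ A hA
  have key := h' (φ.comp (LinearMap.mulLeft ℂ f)) (Λ * ε) D0 (mul_nonneg hΛ hε)
    (fun B hB => by
      simpa using h φ ε (D0 + D') hε (fun C hC => hφ C (by omega)) B hB) A hA
  simp only [Seminorm.comp_apply, LinearMap.mulLeft_apply] at key
  rw [mul_assoc]
  calc φ (f * (g * chi A)) ≤ Λ' * (Λ * ε) := key
    _ = Λ * Λ' * ε := by ring

lemma rep_wt (T : Finset (Fin N)) : Rep 1 (N : ℝ) (fun σ => (wt T σ : ℂ)) := by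
  intro φ ε D0 hε hφ A hA
  have : (fun σ => (wt T σ : ℂ)) * chi A = ∑ i ∈ T, chi (insert i A) := by
    funext σ
    simp only [Pi.mul_apply, Finset.sum_apply, chi, wt, Finset.card_filter, Nat.cast_sum,
      Finset.sum_mul, Finset.mem_insert, forall_eq_or_imp]
    refine Finset.sum_congr rfl fun i _ => ?_
    by_cases h1 : σ i = false <;> by_cases h2 : ∀ j ∈ A, σ j = false <;> simp [h1, h2]
  rw [this]
  calc φ (∑ i ∈ T, chi (insert i A)) ≤ ∑ i ∈ T, φ (chi (insert i A)) :=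
        Finset.le_sum_of_subadditive φ (map_zero φ).le (map_add_le_add φ) _ _
    _ ≤ ∑ _i ∈ T, ε := Finset.sum_le_sum fun i _ =>
        hφ _ ((Finset.card_insert_le i A).trans (by omega))
    _ = T.card * ε := by simp
    _ ≤ N * ε := by
        refine mul_le_mul_of_nonneg_right ?_ hε
        exact_mod_cast (by simpa using Finset.card_le_univ T : T.card ≤ N)

lemma chi_empty : chi (∅ : Finset (Fin N)) = 1 := by
  funext σ; simp [chi]

lemma Rep.apply {D : ℕ} {Λ : ℝ} {f : Cfg N → ℂ} (h : Rep D Λ f) (φ : Seminorm ℂ (Cfg N → ℂ))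
    (ε : ℝ) (hε : 0 ≤ ε) (hφ : ∀ A : Finset (Fin N), A.card ≤ D → φ (chi A) ≤ ε) :
    φ f ≤ Λ * ε := by
  have := h φ ε 0 hε (fun A hA => hφ A (by omega)) ∅ (by simp)
  rwa [chi_empty, mul_one] at this

lemma Rep.norm_le {D : ℕ} {Λ : ℝ} {f : Cfg N → ℂ} (h : Rep D Λ f) (σ : Cfg N) : ‖f σ‖ ≤ Λ := by
  have := h.apply ((normSeminorm ℂ ℂ).comp (LinearMap.proj σ)) 1 zero_le_one (fun A _ => by
    simp only [Seminorm.comp_apply, LinearMap.coe_proj, Function.eval, coe_normSeminorm, chi]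
    split_ifs <;> simp)
  simpa using this

/-- An affine function of the weight. -/
lemma rep_affine (T : Finset (Fin N)) (a b c : ℝ) (ha : |a| ≤ c) (hb : |b| ≤ c) :
    Rep 1 (c * (N + 1)) (fun σ => ((a + b * wt T σ : ℝ) : ℂ)) := by
  have h1 := (rep_const (N := N) (a : ℂ)).mono (D' := 1) (by omega) (Λ' := c) (by simpa using ha)
  have h2 := ((rep_const (N := N) (b : ℂ)).mul (rep_wt T) (norm_nonneg _)).mono (D' := 1)
    (by omega) (Λ' := c * N) (by
      refine mul_le_mul_of_nonneg_right (by simpa using hb) (Nat.cast_nonneg _))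
  have h3 := h1.add h2
  have e1 : c + c * N = c * (N + 1) := by ring
  rw [e1] at h3
  convert h3 using 1
  funext σ; simp

/-- Chebyshev polynomials, as a recursively defined real sequence. -/
def ch (u : ℝ) : ℕ → ℝ
  | 0 => 1
  | 1 => u
  | n + 2 => 2 * u * ch u (n + 1) - ch u n

lemma ch_cos (θ : ℝ) (n : ℕ) : ch (Real.cos θ) n = Real.cos (n * θ) := by
  induction n using Nat.twoStepInduction with
  | zero => simp [ch]
  | one => simp [ch]
  | more n h0 h1 =>
    rw [ch, h0, h1]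
    have e1 : ((n + 2 : ℕ) : ℝ) * θ = ((n + 1 : ℕ) : ℝ) * θ + θ := by push_cast; ring
    have e2 : (n : ℝ) * θ = ((n + 1 : ℕ) : ℝ) * θ - θ := by push_cast; ring
    rw [e1, e2, Real.cos_add, Real.cos_sub]; ring

lemma abs_ch_le (u : ℝ) (h1 : -1 ≤ u) (h2 : u ≤ 1) (n : ℕ) : |ch u n| ≤ 1 := by
  rw [← Real.cos_arccos h1 h2, ch_cos]
  exact Real.abs_cos_le_one _

lemma ch_lam (l : ℝ) (hl : l ≠ 0) (n : ℕ) : ch ((l + l⁻¹) / 2) n = (l ^ n + l⁻¹ ^ n) / 2 := by
  induction n using Nat.twoStepInduction with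
  | zero => simp [ch]
  | one => simp [ch]
  | more n h0 h1 =>
    rw [ch, h0, h1]
    have : l * l⁻¹ = 1 := mul_inv_cancel₀ hl
    linear_combination (l ^ n + l⁻¹ ^ n) / 2 * this

lemma rep_ch (g : Cfg N → ℝ) (lam c : ℝ) (hlam : 0 ≤ lam) (hc : 2 * lam + 1 ≤ c)
    (hg : Rep 1 lam (fun σ => (g σ : ℂ))) (n : ℕ) :
    Rep n (c ^ n) (fun σ => (ch (g σ) n : ℂ)) := by
  have hc1 : 1 ≤ c := by linarith
  induction n using Nat.twoStepInduction with
  | zero => simpa [ch] using rep_const (N := N) 1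
  | one => simpa [ch] using hg.mono le_rfl (by linarith : lam ≤ c)
  | more n h0 h1 =>
    have a1 := ((rep_const (N := N) 2).mul hg (norm_nonneg _)).mul h1
      (mul_nonneg (norm_nonneg _) hlam)
    have a2 := (rep_const (N := N) (-1)).mul h0 (norm_nonneg _)
    have a3 := (a1.mono (D' := n + 2) (by omega) le_rfl).add (a2.mono (D' := n + 2) (by omega) le_rfl)
    have h := a3.mono le_rfl (Λ' := c ^ (n + 2)) (by
      have : c ^ n ≤ c ^ (n + 1) := pow_le_pow_right₀ hc1 (by omega)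
      have h2 : 0 ≤ c ^ (n + 1) := by positivity
      simp only [Complex.norm_ofNat, norm_neg, norm_one, one_mul]
      calc 2 * lam * c ^ (n + 1) + c ^ n ≤ (2 * lam + 1) * c ^ (n + 1) := by nlinarith
        _ ≤ c * c ^ (n + 1) := mul_le_mul_of_nonneg_right hc h2
        _ = c ^ (n + 2) := by ring)
    convert h using 1
    funext σ; simp [ch]; ring

lemma rep_prod (T : Finset (Fin N)) (M : ℕ) :
    Rep M (((N : ℝ) + 1) ^ M)
      (fun σ => ((∏ j ∈ Finset.range M, (1 - (wt T σ : ℝ) / (j + 1)) : ℝ) : ℂ)) := by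
  induction M with
  | zero => simpa using rep_const (N := N) 1
  | succ M ih =>
    have h1 := rep_affine T 1 (-(1 / ((M : ℝ) + 1))) 1 (by simp) (by
      rw [abs_neg, abs_of_nonneg (by positivity), div_le_one (by positivity)]
      linarith [(Nat.cast_nonneg M : (0 : ℝ) ≤ M)])
    have h2 := ih.mul h1 (by positivity)
    rw [one_mul, ← pow_succ] at h2
    convert h2 using 1
    funext σ
    rw [Finset.prod_range_succ, Pi.mul_apply, ← Complex.ofReal_mul]
    congr 2; ring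

/-- Approximation of the indicator of `0` on `{0, …, r² M}` with error `2^{-M}`. -/
lemma exists_poly (r M l : ℕ) (hr : 1 ≤ r) (hM : 1 ≤ M) (hl : N + 1 ≤ 2 ^ l) :
    ∃ p : ℕ → ℝ, p 0 = 1 ∧ (∀ z, 1 ≤ z → z ≤ r ^ 2 * M → z ≤ N → |p z| ≤ 1 / 2 ^ M) ∧
      ∀ T : Finset (Fin N), Rep (r * M * (l + 3)) (2 ^ ((l + 3) * (r * M * (l + 3))))
        (fun σ => (p (wt T σ) : ℂ)) := by
  have hr' : (1 : ℝ) ≤ r := by exact_mod_cast hr
  have hM' : (1 : ℝ) ≤ M := by exact_mod_cast hM
  have hl' : (N : ℝ) + 1 ≤ 2 ^ l := by exact_mod_cast hl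
  set lam : ℝ := 1 + 1 / r with hlam
  have hlam1 : 1 < lam := by rw [hlam]; have : (0 : ℝ) < 1 / r := by positivity
                             linarith
  set u0 : ℝ := (lam + lam⁻¹) / 2 with hu0
  have hu0a : 1 ≤ u0 := by
    rw [hu0, le_div_iff₀ (by norm_num)]
    have : 0 < lam := by linarith
    field_simp
    nlinarith [sq_nonneg (lam - 1)]
  have hu0b : u0 ≤ 1 + 2 / (r : ℝ) ^ 2 := by
    have h0 : (0 : ℝ) < r := by linarith
    rw [hu0, hlam]
    field_simp
    nlinarith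
  have hu0c : u0 ≤ 2 := by
    have h1 : lam ≤ 2 := by
      rw [hlam]; have : (1 : ℝ) / r ≤ 1 := by rw [div_le_one (by linarith)]; exact hr'
      linarith
    have h2 : lam⁻¹ ≤ 1 := inv_le_one_of_one_le₀ hlam1.le
    rw [hu0]; linarith
  set s : ℕ := r * (1 + M + M * l) with hs
  set B : ℝ := (r : ℝ) ^ 2 * M with hB
  have hB1 : 1 ≤ B := by rw [hB]; nlinarith
  have hbig : (2 : ℝ) ^ (M + M * l) ≤ ch u0 s := by
    rw [hu0, ch_lam lam (by linarith)]
    have h1 : (2 : ℝ) ≤ lam ^ r := by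
      have := one_add_mul_le_pow (a := 1 / (r : ℝ)) (by
        have : (0 : ℝ) < 1 / r := by positivity
        linarith) r
      rw [mul_one_div_cancel (by linarith)] at this
      linarith
    have h2 : (2 : ℝ) ^ (1 + M + M * l) ≤ lam ^ s := by
      rw [hs, pow_mul]; exact pow_le_pow_left₀ (by norm_num) h1 _
    have h3 : 0 ≤ lam⁻¹ ^ s := by have : 0 < lam := by linarith
                                  positivity
    have h4 : (2 : ℝ) ^ (1 + M + M * l) = 2 * 2 ^ (M + M * l) := by rw [add_assoc, pow_add]; simp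
    linarith
  have hbig1 : 1 ≤ ch u0 s := le_trans (one_le_pow₀ (by norm_num)) hbig
  refine ⟨fun z => (∏ j ∈ Finset.range M, (1 - (z : ℝ) / (j + 1))) *
    (ch (u0 + (-(2 / B)) * z) s * (ch u0 s)⁻¹), ?_, fun z hz1 hzB hzN => ?_, fun T => ?_⟩
  · simp only [Nat.cast_zero, zero_div, sub_zero, Finset.prod_const_one, mul_zero, add_zero,
      one_mul]
    exact mul_inv_cancel₀ (by linarith)
  · by_cases hzM : z ≤ M
    · have : ∏ j ∈ Finset.range M, (1 - (z : ℝ) / (j + 1)) = 0 := by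
        refine Finset.prod_eq_zero (i := z - 1) (Finset.mem_range.2 (by omega)) ?_
        have : ((z - 1 : ℕ) : ℝ) + 1 = z := by
          rw [Nat.cast_sub hz1]; simp
        rw [this, div_self (by positivity), sub_self]
      simp [this]
    · have hzM' : (M : ℝ) ≤ z := by exact_mod_cast (by omega : M ≤ z)
      have hzB' : (z : ℝ) ≤ B := by rw [hB]; exact_mod_cast hzB
      have hzN' : (z : ℝ) ≤ N := by exact_mod_cast hzN
      have hz0 : (0 : ℝ) ≤ z := Nat.cast_nonneg z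
      have e1 : |∏ j ∈ Finset.range M, (1 - (z : ℝ) / (j + 1))| ≤ (2 ^ l) ^ M := by
        rw [Finset.abs_prod]
        calc ∏ j ∈ Finset.range M, |1 - (z : ℝ) / (j + 1)| ≤ ∏ _j ∈ Finset.range M, (2 : ℝ) ^ l := by
              refine Finset.prod_le_prod (fun _ _ => abs_nonneg _) fun j _ => ?_
              have h1 : (z : ℝ) / (j + 1) ≤ z :=
                div_le_self hz0 (by linarith [(Nat.cast_nonneg j : (0 : ℝ) ≤ j)])
              have h2 : 0 ≤ (z : ℝ) / (j + 1) := by positivity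
              rw [abs_le]; constructor <;> linarith
          _ = (2 ^ l) ^ M := by simp
      have e2 : |ch (u0 + (-(2 / B)) * z) s| ≤ 1 := by
        have hB0 : 0 < B := by linarith
        apply abs_ch_le
        · have : 2 / B * z ≤ 2 := by
            rw [div_mul_eq_mul_div, div_le_iff₀ hB0]; linarith
          linarith
        · have : 2 / (r : ℝ) ^ 2 ≤ 2 / B * z := by
            rw [hB, div_mul_eq_mul_div, div_le_div_iff₀ (by positivity) (by positivity)]
            have : (0 : ℝ) < (r : ℝ) ^ 2 := by positivity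
            nlinarith
          linarith
      have e3 : |(ch u0 s)⁻¹| ≤ ((2 : ℝ) ^ (M + M * l))⁻¹ := by
        rw [abs_of_nonneg (by positivity)]
        exact inv_anti₀ (by positivity) hbig
      rw [abs_mul, abs_mul]
      calc _ ≤ (2 ^ l) ^ M * (1 * ((2 : ℝ) ^ (M + M * l))⁻¹) := by gcongr
        _ = 1 / 2 ^ M := by
          rw [← pow_mul, pow_add, mul_comm l M]; field_simp
  · have a1 := rep_prod T M
    have a2 := rep_affine T u0 (-(2 / B)) 2 (by rw [abs_of_nonneg (by linarith)]; exact hu0c) (by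
      rw [abs_neg, abs_of_nonneg (by positivity), div_le_iff₀ (by linarith)]; linarith)
    have a3 := rep_ch (fun σ => u0 + (-(2 / B)) * wt T σ) _ (2 ^ (l + 3)) (by positivity) (by
      rw [pow_add]; have : (1 : ℝ) ≤ 2 ^ l := one_le_pow₀ (by norm_num)
      norm_num; linarith) a2 s
    have a4 := (rep_const (N := N) (((ch u0 s)⁻¹ : ℝ) : ℂ)).mono le_rfl (Λ' := 1) (by
      rw [Complex.norm_real, Real.norm_eq_abs, abs_of_nonneg (by positivity)]
      exact inv_le_one_of_one_le₀ hbig1)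
    have a5 := a1.mul (a3.mul a4 (by positivity)) (by positivity)
    have hdeg : M + (s + 0) ≤ r * M * (l + 3) := by
      rw [hs]; nlinarith [Nat.mul_le_mul hr hM, Nat.mul_le_mul_left r hM, Nat.mul_le_mul_right M hr]
    have h := a5.mono hdeg (Λ' := 2 ^ ((l + 3) * (r * M * (l + 3)))) (by
      calc ((N : ℝ) + 1) ^ M * ((2 ^ (l + 3)) ^ s * 1) ≤ (2 ^ (l + 3)) ^ M * ((2 ^ (l + 3)) ^ s * 1) := by
            gcongr
            exact hl'.trans (pow_le_pow_right₀ (by norm_num) (by omega))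
        _ = (2 ^ (l + 3)) ^ (M + (s + 0)) := by rw [mul_one, ← pow_add, add_zero]
        _ ≤ (2 ^ (l + 3)) ^ (r * M * (l + 3)) :=
            pow_le_pow_right₀ (one_le_pow₀ (by norm_num)) hdeg
        _ = _ := by rw [← pow_mul])
    convert h using 1
    funext σ
    simp only [Pi.mul_apply, Complex.ofReal_mul]

end Crest.Agent.R344
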