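import Crest.Agent.R344.Boot

/-! Propagation of soft locality through one layer, and the resulting asymptotic bound. -/

set_option autoImplicit false
set_option maxHeartbeats 400000

open scoped Matrix.Norms.L2Operator
open Matrix

namespace Crest.Agent.R344

variable {N : ℕ}

lemma wt_le_add (S y : Finset (Fin N)) (σ : Cfg N) : wt S σ ≤ wt (S \ y) σ + y.card := by
  unfold wt
  refine le_trans (Finset.card_le_card ?_) (Finset.card_union_le _ _)
  intro i hi
  simp only [Finset.mem_filter, Finset.mem_union, Finset.mem_sdiff] at hi ⊢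
  tauto

lemma xp_zero (N : ℕ) : XP N 0 1 := by
  intro V hV S A Q m hQ _ hA
  cases hV with
  | loc g hg =>
    obtain ⟨⟨M, hM, hM1⟩, -⟩ := hQ.conj hg
    rw [hM]
    have : GG S (1 * m) * prodOp M * PP S = 0 := by
      ext σ τ
      unfold GG PP ind
      rw [mul_diagonal, diagonal_mul]
      by_cases h1 : 1 * m < wt S σ
      · by_cases h2 : wt S τ = 0
        · have h3 : wt (S \ A) σ ≠ 0 := by
            have := wt_le_add S A σ
            omega
          rw [Ne, wt_eq_zero_iff] at h3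
          push Not at h3
          obtain ⟨i, hi, hσ⟩ := h3
          rw [Finset.mem_sdiff] at hi
          have hτ := (wt_eq_zero_iff S τ).1 h2 i hi.1
          have : prodOp M σ τ = 0 := by
            rw [prodOp_apply]
            refine Finset.prod_eq_zero (Finset.mem_univ i) ?_
            rw [hM1 i hi.2]; exact one_apply_ne (by rw [hτ]; exact hσ)
          simp [this]
        · simp [h2]
      · simp only [h1, if_false, zero_mul, Matrix.zero_apply]
    rw [this, norm_zero]; positivity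

lemma card_small_sets (r : ℕ) :
    (Finset.univ.filter fun y : Finset (Fin N) => y.card ≤ r).card ≤ (N + 1) ^ r := by
  induction r with
  | zero =>
    rw [pow_zero, Finset.card_le_one]
    intro a ha b hb
    simp only [Finset.mem_filter, Finset.mem_univ, true_and, nonpos_iff_eq_zero,
      Finset.card_eq_zero] at ha hb
    rw [ha, hb]
  | succ r ih =>
    have hsub : (Finset.univ.filter fun y : Finset (Fin N) => y.card ≤ r + 1) ⊆
        insert ∅ (((Finset.univ : Finset (Fin N)) ×ˢ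
          (Finset.univ.filter fun y : Finset (Fin N) => y.card ≤ r)).image
            fun q => insert q.1 q.2) := by
      intro y hy
      simp only [Finset.mem_filter, Finset.mem_univ, true_and] at hy
      rcases y.eq_empty_or_nonempty with rfl | ⟨i, hi⟩
      · simp
      · refine Finset.mem_insert_of_mem (Finset.mem_image.2 ⟨(i, y.erase i), ?_, ?_⟩)
        · simp only [Finset.mem_product, Finset.mem_univ, Finset.mem_filter, true_and]
          rw [Finset.card_erase_of_mem hi]; omega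
        · exact Finset.insert_erase hi
    refine (Finset.card_le_card hsub).trans ((Finset.card_insert_le _ _).trans ?_)
    refine (Nat.add_le_add_right Finset.card_image_le 1).trans ?_
    rw [Finset.card_product, Finset.card_univ, Fintype.card_fin, pow_succ]
    have : 1 ≤ (N + 1) ^ r := Nat.one_le_pow _ _ (by omega)
    nlinarith

lemma low_energy (B : Mat N) (w r : ℕ) (ε : ℝ) (hε : 0 ≤ ε)
    (h : ∀ S : Finset (Fin N), ‖GG S w * B * PP S‖ ≤ ε) (S : Finset (Fin N)) :
    ‖GG S (w + r) * B * (1 - GG S r)‖ ≤ ((N : ℝ) + 1) ^ r * ε := by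
  have e : (1 : Mat N) - GG S r =
      ∑ y ∈ Finset.univ.filter (fun y : Finset (Fin N) => y.card ≤ r),
        ind (fun σ => S.filter (fun i => σ i = false) = y) := by
    ext σ τ
    rw [Matrix.sum_apply]
    by_cases hστ : σ = τ
    · subst hστ
      simp only [GG, ind, Matrix.sub_apply, one_apply_eq, diagonal_apply_eq]
      rw [Finset.sum_ite_eq]
      simp only [Finset.mem_filter, Finset.mem_univ, true_and, wt]
      by_cases h : r < (S.filter fun i => σ i = false).card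
      · simp [h, not_le.2 h]
      · simp [h, not_lt.1 h]
    · simp [GG, ind, hστ]
  rw [e, Finset.mul_sum]
  refine (norm_sum_le _ _).trans ?_
  have hterm : ∀ y ∈ Finset.univ.filter (fun y : Finset (Fin N) => y.card ≤ r),
      ‖GG S (w + r) * B * ind (fun σ => S.filter (fun i => σ i = false) = y)‖ ≤ ε := by
    intro y hy
    simp only [Finset.mem_filter, Finset.mem_univ, true_and] at hy
    have e1 : GG S (w + r) * GG (S \ y) w = GG S (w + r) := by
      refine ind_mul_ind _ _ _ fun σ => ⟨fun h1 => ⟨h1, ?_⟩, fun h1 => h1.1⟩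
      have := wt_le_add S y σ
      omega
    have e2 : PP (S \ y) * ind (fun σ => S.filter (fun i => σ i = false) = y) =
        ind (fun σ => S.filter (fun i => σ i = false) = y) := by
      refine ind_mul_ind _ _ _ fun σ => ⟨fun h1 => ⟨?_, h1⟩, fun h1 => h1.2⟩
      rw [wt_eq_zero_iff]
      intro i hi
      rw [Finset.mem_sdiff, ← h1, Finset.mem_filter] at hi
      cases hσ : σ i
      · exact absurd ⟨hi.1, hσ⟩ hi.2
      · rfl
    rw [← e1, ← e2]
    have e3 : GG S (w + r) * GG (S \ y) w * B *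
        (PP (S \ y) * ind (fun σ => S.filter (fun i => σ i = false) = y)) =
        GG S (w + r) * (GG (S \ y) w * B * PP (S \ y)) *
          ind (fun σ => S.filter (fun i => σ i = false) = y) := by simp only [mul_assoc]
    rw [e3]
    exact (norm_mul_le_of_le_one_right (norm_ind_le _)).trans
      ((norm_mul_le_of_le_one_left (norm_GG_le _ _)).trans (h _))
  refine (Finset.sum_le_sum hterm).trans ?_
  rw [Finset.sum_const, nsmul_eq_mul]
  refine mul_le_mul_of_nonneg_right ?_ hε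
  exact_mod_cast card_small_sets r

lemma PP_mul_loc {A : Finset (Fin N)} {Q : Mat N} (hQ : Loc A Q) (T₀ T : Finset (Fin N)) :
    ∃ Q' T', Loc A Q' ∧ PP T₀ * (Q * PP T) = Q' * PP T' := by
  refine ⟨PP (T₀ ∩ A) * Q, (T₀ \ A) ∪ T, (loc_PP Finset.inter_subset_right).mul hQ, ?_⟩
  have e : PP T₀ = PP (T₀ ∩ A) * PP (T₀ \ A) := by
    rw [PP_mul_PP]; congr 1; ext i; simp only [Finset.mem_union, Finset.mem_inter,
      Finset.mem_sdiff]; tauto
  rw [e, ← PP_mul_PP, mul_assoc, ← mul_assoc (PP (T₀ \ A)),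
    PP_comm_loc hQ Finset.sdiff_disjoint]
  simp only [mul_assoc]

lemma layer_conj {S' : Finset (Fin N)} {U : Mat N} (hU : DLayer S' U) (A : Finset (Fin N))
    (a b : Mat N) (ε : ℝ) (hε : 0 ≤ ε)
    (h : ∀ Q T, Loc A Q → ‖a * (Q * PP T) * b‖ ≤ ε) :
    ∀ Q T, Loc A Q → ‖a * (U * (Q * PP T) * U) * b‖ ≤ 9 ^ (A ∩ S').card * ε := by
  induction hU with
  | nil => intro Q T hQ; simpa using h Q T hQ
  | cons T₀ S U hU hdisj ih =>
    intro Q T hQ
    have hcomm : U * PP T₀ = PP T₀ * U := by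
      obtain ⟨f, rfl, -, -⟩ := hU.diag
      unfold PP ind
      rw [diagonal_mul_diagonal, diagonal_mul_diagonal]
      congr 1; funext σ; ring
    have hcomm' : U * (1 - 2 * PP T₀) = (1 - 2 * PP T₀) * U := by
      rw [two_mul, mul_sub, sub_mul, mul_add, add_mul, hcomm, mul_one, one_mul]
    have e0 : U * (1 - 2 * PP T₀) * (Q * PP T) * (U * (1 - 2 * PP T₀)) =
        U * ((1 - 2 * PP T₀) * (Q * PP T) * (1 - 2 * PP T₀)) * U := by
      nth_rewrite 2 [hcomm']
      simp only [mul_assoc]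
    rw [e0]
    have hPP : PP T₀ * PP T₀ = PP T₀ := by rw [PP_mul_PP, Finset.union_self]
    by_cases hT : Disjoint T₀ A
    · have e1 : (1 - 2 * PP T₀) * (Q * PP T) * (1 - 2 * PP T₀) = Q * PP T := by
        have c1 : PP T₀ * (Q * PP T) = (Q * PP T) * PP T₀ := by
          rw [← mul_assoc, PP_comm_loc hQ hT, mul_assoc, mul_assoc, PP_mul_PP, PP_mul_PP,
            Finset.union_comm]
        obtain ⟨Y, hY⟩ : ∃ Y, Y = Q * PP T := ⟨_, rfl⟩
        rw [← hY] at c1 ⊢
        have c2 : PP T₀ * Y * PP T₀ = Y * PP T₀ := by rw [c1, mul_assoc, hPP]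
        calc (1 - 2 * PP T₀) * Y * (1 - 2 * PP T₀)
            = Y - 2 * (PP T₀ * Y) - 2 * (Y * PP T₀) + 4 * (PP T₀ * Y * PP T₀) := by noncomm_ring
          _ = Y := by rw [c2, c1]; noncomm_ring
      rw [e1]
      refine (ih Q T hQ).trans (mul_le_mul_of_nonneg_right ?_ hε)
      refine pow_le_pow_right₀ (by norm_num) (Finset.card_le_card ?_)
      exact Finset.inter_subset_inter_left Finset.subset_union_right
    · have hcard : (A ∩ S).card + 1 ≤ (A ∩ (T₀ ∪ S)).card := by
        rw [Finset.not_disjoint_iff] at hT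
        obtain ⟨i, hi, hiA⟩ := hT
        refine Finset.card_lt_card ⟨Finset.inter_subset_inter_left Finset.subset_union_right,
          fun hsub => ?_⟩
        have := hsub (Finset.mem_inter.2 ⟨hiA, Finset.mem_union_left _ hi⟩)
        exact Finset.disjoint_left.1 hdisj hi (Finset.mem_inter.1 this).2
      obtain ⟨Q₁, T₁, hQ₁, e₁⟩ := PP_mul_loc hQ T₀ T
      have n0 := ih Q T hQ
      have n1 := ih Q₁ T₁ hQ₁
      have n2 := ih Q (T ∪ T₀) hQ
      have n3 := ih Q₁ (T₁ ∪ T₀) hQ₁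
      rw [← e₁] at n1
      rw [← PP_mul_PP, ← mul_assoc Q] at n2
      rw [← PP_mul_PP, ← mul_assoc Q₁, ← e₁] at n3
      obtain ⟨Y, hY⟩ : ∃ Y, Y = Q * PP T := ⟨_, rfl⟩
      rw [← hY] at n0 n1 n2 n3 ⊢
      have e2 : a * (U * ((1 - 2 * PP T₀) * Y * (1 - 2 * PP T₀)) * U) * b =
          a * (U * Y * U) * b - (2 : ℂ) • (a * (U * (PP T₀ * Y) * U) * b) -
            (2 : ℂ) • (a * (U * (Y * PP T₀) * U) * b) +
            (4 : ℂ) • (a * (U * (PP T₀ * Y * PP T₀) * U) * b) := by
        have h4 : (4 : ℂ) = 2 + 2 := by norm_num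
        simp only [h4, add_smul, two_smul, two_mul]
        noncomm_ring
      rw [e2]
      have b1 := norm_add_le (a * (U * Y * U) * b - (2 : ℂ) • (a * (U * (PP T₀ * Y) * U) * b) -
            (2 : ℂ) • (a * (U * (Y * PP T₀) * U) * b))
            ((4 : ℂ) • (a * (U * (PP T₀ * Y * PP T₀) * U) * b))
      have b2 := norm_sub_le (a * (U * Y * U) * b - (2 : ℂ) • (a * (U * (PP T₀ * Y) * U) * b))
            ((2 : ℂ) • (a * (U * (Y * PP T₀) * U) * b))
      have b3 := norm_sub_le (a * (U * Y * U) * b) ((2 : ℂ) • (a * (U * (PP T₀ * Y) * U) * b))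
      simp only [norm_smul, Complex.norm_ofNat] at b1 b2 b3
      have b4 : (9 : ℝ) ^ ((A ∩ S).card + 1) * ε ≤ 9 ^ (A ∩ (T₀ ∪ S)).card * ε :=
        mul_le_mul_of_nonneg_right (pow_le_pow_right₀ (by norm_num) hcard) hε
      rw [pow_succ] at b4
      linarith

lemma xp_step {t k K Γ l ρ : ℕ} (hl : N + 1 ≤ 2 ^ l) (hK : 1 ≤ K) (hΓ : 1 ≤ Γ) (hρ : 1 ≤ ρ)
    (hN : N ≤ ρ ^ (k + 1)) (hX : XP N t K) (hY : YP N t k Γ) :
    XP N (t + 1) (18 * K * (l + 3) * Γ * ρ) := by
  intro V' hV' S A Q m hQ hm hA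
  cases hV' with
  | step _ V U g S' hV hU hg =>
    have hVu := hV.mem_unitary
    obtain ⟨r, hr⟩ : ∃ r, r = Γ * ρ * (6 * m) := ⟨_, rfl⟩
    obtain ⟨m', hm'⟩ : ∃ m', m' = 6 * m + l * r := ⟨_, rfl⟩
    have hw : K * m' + r ≤ 18 * K * (l + 3) * Γ * ρ * m := by
      have h1 : 1 ≤ Γ * ρ := Nat.mul_le_mul hΓ hρ
      have h2 : m ≤ Γ * ρ * m := Nat.le_mul_of_pos_left _ h1
      have h3 : Γ * ρ * m ≤ K * (Γ * ρ * m) := Nat.le_mul_of_pos_left _ hK
      have h4 : K * m ≤ K * (Γ * ρ * m) := Nat.mul_le_mul_left _ h2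
      have e1 : K * m' + r = 6 * (K * m) + 6 * (l * (K * (Γ * ρ * m))) + 6 * (Γ * ρ * m) := by
        rw [hm', hr]; ring
      have e2 : 18 * K * (l + 3) * Γ * ρ * m =
          18 * (l * (K * (Γ * ρ * m))) + 54 * (K * (Γ * ρ * m)) := by ring
      rw [e1, e2]; omega
    refine (norm_GG_mul_mono S hw _ _).trans ?_
    have key := layer_conj hU A (GG S (K * m' + r) * star V) (V * PP S) (1 / 2 ^ (5 * m))
      (by positivity) (fun Q' T' hQ' => by
        have h1 := low_energy (star V * Q' * V) (K * m') r (1 / 2 ^ m') (by positivity)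
          (fun S₀ => hX V hV S₀ A Q' m' hQ' (by omega) (by omega)) S
        have h2 := hY V hV S T' ρ (6 * m) hρ (by omega)
          (hN.trans (Nat.le_mul_of_pos_right _ (by omega)))
        rw [← hr] at h2
        have e : GG S (K * m' + r) * star V * (Q' * PP T') * (V * PP S) =
            GG S (K * m' + r) * (star V * Q' * V) * (1 - GG S r) * (star V * PP T' * V * PP S) +
            GG S (K * m' + r) * (star V * Q' * V) * (GG S r * (star V * PP T' * V) * PP S) := by
          calc GG S (K * m' + r) * star V * (Q' * PP T') * (V * PP S)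
              = GG S (K * m' + r) * star V * Q' * (V * star V) * PP T' * (V * PP S) := by
                rw [hVu.2]; simp only [mul_assoc, mul_one, one_mul]
            _ = _ := by noncomm_ring
        rw [e]
        have h3 : ‖star V * PP T' * V * PP S‖ ≤ 1 := by
          refine (norm_mul_le_of_le_one_right (norm_PP_le _)).trans ?_
          rw [norm_conj hVu]; exact norm_PP_le _
        have h4 : ‖GG S (K * m' + r) * (star V * Q' * V)‖ ≤ 1 := by
          refine (norm_mul_le_of_le_one_left (norm_GG_le _ _)).trans ?_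
          rw [norm_conj hVu]; exact hQ'.2
        have h5 : ((N : ℝ) + 1) ^ r * (1 / 2 ^ m') ≤ 1 / 2 ^ (6 * m) := by
          have hl' : (N : ℝ) + 1 ≤ 2 ^ l := by exact_mod_cast hl
          calc ((N : ℝ) + 1) ^ r * (1 / 2 ^ m') ≤ (2 ^ l) ^ r * (1 / 2 ^ m') := by gcongr
            _ = 1 / 2 ^ (6 * m) := by rw [hm', pow_add, ← pow_mul]; field_simp
        have h6 : (2 : ℝ) * (1 / 2 ^ (6 * m)) ≤ 1 / 2 ^ (5 * m) := by
          have : (2 : ℝ) ^ (5 * m + 1) ≤ 2 ^ (6 * m) := pow_le_pow_right₀ (by norm_num) (by omega)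
          rw [mul_one_div, div_le_div_iff₀ (by positivity) (by positivity)]
          rw [pow_succ] at this; linarith
        refine (norm_add_le _ _).trans ?_
        linarith [norm_mul_le_of_le_one_right
          (a := GG S (K * m' + r) * (star V * Q' * V) * (1 - GG S r)) h3,
          norm_mul_le_of_le_one_left (b := GG S r * (star V * PP T' * V) * PP S) h4])
      (star g * Q * g) ∅ (hQ.conj hg)
    have e : GG S (K * m' + r) * (star (g * U * V) * Q * (g * U * V)) * PP S =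
        GG S (K * m' + r) * star V * (U * (star g * Q * g * PP ∅) * U) * (V * PP S) := by
      rw [star_mul, star_mul, hU.star_eq, PP_empty]; simp only [mul_assoc, mul_one]
    rw [e]
    refine key.trans ?_
    have h1 : (9 : ℝ) ^ (A ∩ S').card ≤ 2 ^ (4 * m) := by
      rw [pow_mul]
      exact (pow_le_pow_right₀ (by norm_num)
        ((Finset.card_le_card Finset.inter_subset_left).trans hA)).trans
        (pow_le_pow_left₀ (by norm_num) (by norm_num) _)
    calc (9 : ℝ) ^ (A ∩ S').card * (1 / 2 ^ (5 * m)) ≤ 2 ^ (4 * m) * (1 / 2 ^ (5 * m)) := by gcongr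
      _ = 1 / 2 ^ m := by
        rw [show 5 * m = 4 * m + m by ring, pow_add]; field_simp

lemma xp_step' {t k K l ρ : ℕ} (hl : N + 1 ≤ 2 ^ l) (hK : 1 ≤ K) (hρ : 1 ≤ ρ)
    (hN : N ≤ ρ ^ (k + 1)) (hX : XP N t K) :
    XP N (t + 1) ((18 * K * (l + 3) ^ 4) ^ (k + 1) * ρ) := by
  have h := xp_step hl hK (Nat.one_le_pow _ _ (by positivity)) hρ hN hX (yp_of_xp hl hK hX k)
  intro V hV S A Q m hQ hm hA
  refine (norm_GG_mul_mono S ?_ _ _).trans (h V hV S A Q m hQ hm hA)
  refine Nat.mul_le_mul_right _ (Nat.mul_le_mul_right _ ?_)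
  rw [pow_succ' (18 * K * (l + 3) ^ 4) k]
  refine Nat.mul_le_mul (Nat.mul_le_mul_left _ (Nat.le_self_pow (n := 4) (by norm_num) _)) ?_
  exact Nat.pow_le_pow_left (Nat.mul_le_mul_right _ (Nat.mul_le_mul_right _ (by norm_num))) _

lemma eventually_polylog (a C : ℕ) :
    ∃ N₀ : ℕ, ∀ N ≥ N₀, C * (Nat.log 2 N + 4) ^ a ≤ N := by
  have h := tendsto_pow_const_div_const_pow_of_one_lt a (r := 2) (by norm_num)
  have h2 := (h.comp (Filter.tendsto_add_atTop_nat 4)).eventually
    (gt_mem_nhds (show (0 : ℝ) < 1 / (16 * (C + 1)) by positivity))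
  obtain ⟨l₀, hl₀⟩ := Filter.eventually_atTop.1 h2
  refine ⟨2 ^ l₀, fun N hN => ?_⟩
  have hN0 : N ≠ 0 := by have := Nat.one_le_two_pow (n := l₀); omega
  have h3 := hl₀ (Nat.log 2 N) (Nat.le_log_of_pow_le (by norm_num) hN)
  simp only [Function.comp] at h3
  rw [div_lt_div_iff₀ (by positivity) (by positivity), pow_add] at h3
  have h4 : (2 : ℝ) ^ Nat.log 2 N ≤ N := by exact_mod_cast Nat.pow_log_le_self 2 hN0
  have h5 : (0 : ℝ) ≤ ((Nat.log 2 N + 4 : ℕ) : ℝ) ^ a := by positivity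
  have : (C : ℝ) * ((Nat.log 2 N + 4 : ℕ) : ℝ) ^ a ≤ N := by nlinarith
  exact_mod_cast this

lemma exists_root (N j : ℕ) (hj : 1 ≤ j) (hN : 1 ≤ N) :
    ∃ ρ : ℕ, 1 ≤ ρ ∧ N ≤ ρ ^ j ∧ ρ ^ j ≤ 2 ^ j * N := by
  classical
  have hex : ∃ ρ : ℕ, N ≤ ρ ^ j := ⟨N, Nat.le_self_pow (by omega) _⟩
  refine ⟨Nat.find hex, ?_, Nat.find_spec hex, ?_⟩
  · by_contra h
    have h0 : Nat.find hex = 0 := by omega
    have := Nat.find_spec hex
    rw [h0, zero_pow (by omega)] at this
    omega
  · by_cases h1 : Nat.find hex ≤ 1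
    · calc Nat.find hex ^ j ≤ 2 ^ j := Nat.pow_le_pow_left (by omega) _
        _ ≤ 2 ^ j * N := Nat.le_mul_of_pos_right _ hN
    · have h2 := Nat.find_min hex (m := Nat.find hex - 1) (by omega)
      calc Nat.find hex ^ j ≤ (2 * (Nat.find hex - 1)) ^ j := Nat.pow_le_pow_left (by omega) _
        _ = 2 ^ j * (Nat.find hex - 1) ^ j := mul_pow _ _ _
        _ ≤ 2 ^ j * N := Nat.mul_le_mul_left _ (by omega)

theorem xp_eventually (t : ℕ) : ∀ q : ℕ, 1 ≤ q → ∃ N₀ : ℕ, ∀ N ≥ N₀,
    ∃ K : ℕ, 1 ≤ K ∧ K ^ q ≤ N ∧ XP N t K := by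
  induction t with
  | zero => exact fun q _ => ⟨1, fun N hN => ⟨1, le_rfl, by simpa using hN, xp_zero N⟩⟩
  | succ t ih =>
    intro q hq
    obtain ⟨j, hj⟩ : ∃ j, j = 3 * q := ⟨_, rfl⟩
    have hj1 : 1 ≤ j := by omega
    obtain ⟨N₁, hN₁⟩ := ih (j * j) (Nat.mul_le_mul hj1 hj1)
    obtain ⟨N₂, hN₂⟩ := eventually_polylog (4 * (j * j)) (18 ^ (j * j) * 2 ^ j)
    refine ⟨max 1 (max N₁ N₂), fun N hN => ?_⟩
    have hN1 : 1 ≤ N := le_trans (le_max_left _ _) hN
    obtain ⟨K, hK1, hKN, hX⟩ := hN₁ N (le_trans ((le_max_left _ _).trans (le_max_right _ _)) hN)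
    have hpl := hN₂ N (le_trans ((le_max_right _ _).trans (le_max_right _ _)) hN)
    obtain ⟨ρ, hρ1, hρ2, hρ3⟩ := exists_root N j hj1 hN1
    have hl : N + 1 ≤ 2 ^ (Nat.log 2 N + 1) := Nat.lt_pow_succ_log_self (by norm_num) N
    obtain ⟨k, rfl⟩ : ∃ k, j = k + 1 := ⟨j - 1, by omega⟩
    refine ⟨_, Nat.mul_pos (by positivity) hρ1, ?_, xp_step' hl hK1 hρ1 hρ2 hX⟩
    rw [← Nat.pow_le_pow_iff_left (n := 3) (by norm_num), ← pow_mul, mul_comm q 3, ← hj]
    obtain ⟨L, hL⟩ : ∃ L, L = Nat.log 2 N + 4 := ⟨_, rfl⟩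
    rw [← hL] at hpl
    rw [show Nat.log 2 N + 1 + 3 = L by omega]
    calc ((18 * K * L ^ 4) ^ (k + 1) * ρ) ^ (k + 1)
        = 18 ^ ((k + 1) * (k + 1)) * L ^ (4 * ((k + 1) * (k + 1))) * K ^ ((k + 1) * (k + 1)) *
          ρ ^ (k + 1) := by
          simp only [mul_pow, ← pow_mul]; ring
      _ ≤ 18 ^ ((k + 1) * (k + 1)) * L ^ (4 * ((k + 1) * (k + 1))) * N * (2 ^ (k + 1) * N) := by
          gcongr
      _ = 18 ^ ((k + 1) * (k + 1)) * 2 ^ (k + 1) * L ^ (4 * ((k + 1) * (k + 1))) * N * N := by ring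
      _ ≤ N * N * N := by gcongr
      _ = N ^ 3 := by ring

end Crest.Agent.R344
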